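import Vale.Agent.P011.H929.LocPair

/-!
Local pairs which are not special.
-/

open Module

namespace Vale.Agent.P011.H3

open Vale.Agent.P011.H182 Vale.Agent.P011.H775 Vale.Agent.P011.H929

variable {k K D : Type} [Field k] [Field K] [DivisionRing D] [StarRing D] [Algebra k K]
  [Algebra k D] [Algebra K D] {N : ℕ}

/-- A local pair `(w, g)` with `x w g = g w` at the absolute value `a`, given by approximations in
`D`, with `w` regular and `w (x - 1) w` not a multiple of `x⁻¹ - 1`. -/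
def LocPair1 (C : Cub K D) (B : Basis (Fin N) k D) (a : AbsoluteValue k ℝ) (x : D) : Prop :=
  ∃ R c : ℝ, 0 < c ∧ ∀ δ : ℝ, 0 < δ → ∃ w g m : D, na B a w ≤ R ∧ na B a g ≤ R ∧
    na B a m ≤ R ∧ dP C w * m = 1 ∧ na B a (star w * w - 1) < δ ∧
    na B a (star g * g - 1) < δ ∧ na B a (x * w * g - g * w) < δ ∧
    ∀ e : K, c ≤ na B a (w * (x - 1) * w - e • (x⁻¹ - 1))

theorem LocPair1.locPair {C : Cub K D} {B : Basis (Fin N) k D} {a : AbsoluteValue k ℝ} {x : D}
    (h : LocPair1 C B a x) : LocPair C B a x := by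
  obtain ⟨R, c, -, h⟩ := h
  refine ⟨R, fun δ hδ => ?_⟩
  obtain ⟨w, g, m, h1, h2, h3, h4, h5, h6, h7, -⟩ := h δ hδ
  exact ⟨w, g, m, h1, h2, h3, h4, h5, h6, h7⟩

end Vale.Agent.P011.H3
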