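import Vale.Agent.P011.H3.Step2

/-!
Polynomial functions and the cubic norm structure; the choice of the scalar in the second step.
-/

open Module Filter Topology

set_option linter.unusedSectionVars false
set_option linter.unusedVariables false

namespace Vale.Agent.P011.H3

open Vale.Agent.P011.H182 Vale.Agent.P011.H775 Vale.Agent.P011.H948 Vale.Agent.P011.H748

section pf

variable {F K D : Type} [Field F] [Field K] [DivisionRing D] [Algebra F K] [Algebra F D]
  [Algebra K D] [IsScalarTower F K D] {C : Cub K D}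

theorem PF.algK {n : ℕ} {f : F → K} (hf : PF n f) : PF n fun t => algebraMap K D (f t) :=
  hf.map ((Algebra.linearMap K D).restrictScalars F)

theorem PF.Tf {n : ℕ} {f : F → D} (hf : PF n f) : PF n fun t => C.T (f t) :=
  hf.map (C.T.restrictScalars F)

theorem PF.smulf {n m : ℕ} {f : F → K} {g : F → D} (hf : PF n f) (hg : PF m g) :
    PF (n + m) fun t => f t • g t := by
  have h := (hf.algK (D := D)).mul hg
  simpa only [Algebra.smul_def] using h

theorem adj_halfK (h2 : (2 : K) ≠ 0) (x : D) : C.adj x = x * x - C.T x • x +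
    ((2⁻¹ : K) * (C.T x * C.T x - C.T (x * x))) • (1 : D) := by
  have h1 : 2 * C.S x = C.T x * C.T x - C.T (x * x) := by
    have h1 := congrArg C.T (C.adj_eq x)
    rw [map_add, map_sub, map_smul, map_smul, C.T_one, smul_eq_mul, smul_eq_mul] at h1
    have h2 : C.T (C.adj x) = C.S x := rfl
    rw [h2] at h1
    linear_combination -h1
  rw [← h1, C.adj_eq, inv_mul_cancel_left₀ h2]

theorem PF.adjf (h2 : (2 : K) ≠ 0) {n : ℕ} {f : F → D} (hf : PF n f) :
    PF (n + n) fun t => C.adj (f t) := by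
  have e : (fun t => C.adj (f t)) = fun t => f t * f t - C.T (f t) • f t +
      ((2⁻¹ : K) * (C.T (f t) * C.T (f t) - C.T (f t * f t))) • (1 : D) :=
    funext fun t => adj_halfK h2 _
  rw [e]
  have h1 := hf.Tf (C := C)
  have h3 : PF (n + n) fun t => (2⁻¹ : K) * (C.T (f t) * C.T (f t) - C.T (f t * f t)) := by
    have h4 := (PF.const (F := F) (2⁻¹ : K) 0).mul ((h1.mul h1).sub ((hf.mul hf).Tf (C := C)))
    rw [zero_add] at h4
    exact h4
  have h4 := h3.smulf (PF.const (F := F) (1 : D) 0)
  rw [add_zero] at h4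
  exact ((hf.mul hf).sub (h1.smulf hf)).add h4

theorem PF.Nf (h2 : (2 : K) ≠ 0) {n : ℕ} {f : F → D} (hf : PF n f) :
    PF (n + (n + n)) fun t => C.N (f t) := by
  obtain ⟨l, hl⟩ : ∃ l : D →ₗ[K] K, l 1 = 1 := by
    obtain ⟨g, hg⟩ := (LinearMap.toSpanSingleton K D 1).exists_leftInverse_of_injective
      (LinearMap.ker_eq_bot.mpr (smul_left_injective K one_ne_zero))
    refine ⟨g, ?_⟩
    have h1 := LinearMap.congr_fun hg 1
    simpa using h1
  have h1 := (hf.mul (hf.adjf (C := C) h2)).map (l.restrictScalars F)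
  have e : (fun t => C.N (f t)) = fun t => (l.restrictScalars F) (f t * C.adj (f t)) := by
    funext t
    rw [C.mul_adj, LinearMap.restrictScalars_apply, map_smul, hl, smul_eq_mul, mul_one]
  rw [e]
  exact h1

end pf

section alpha

variable {k K D : Type} [Field k] [Field K] [StarRing K] [DivisionRing D] [StarRing D]
  [Algebra k K] [Algebra k D] [Algebra K D] [IsScalarTower k K D] {C : Cub K D} {M : ℕ}
  {B : Basis (Fin M) k D} {a : AbsoluteValue k ℝ}

theorem PF.B1f (s : K) (v y : D) :
    PF 2 fun t : K => B1 C (1 + t * s) (1 - t * s) v y := by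
  have hp : PF 1 fun t : K => 1 + t * s := (PF.const (1 : K) 1).add (PF.id s)
  have hq : PF 1 fun t : K => 1 - t * s := (PF.const (1 : K) 1).sub (PF.id s)
  have hc : ∀ (f : K → K) (w : D), PF 2 f → PF 2 fun t => f t • w := fun f w hf => by
    have h1 := hf.smulf (PF.const (F := K) w 0)
    rw [add_zero] at h1
    exact h1
  have hm : ∀ (f : K → K) (c : K), PF 2 f → PF 2 fun t => f t * c := fun f c hf => by
    have h1 := hf.mul (PF.const (F := K) c 0)
    rw [add_zero] at h1
    exact h1
  have h1 := hc _ (1 : D) ((hm _ (C.N v) (hp.mul hp)).sub (hm _ (C.T v) (hp.mul hq)))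
  have h2 := hc _ v (hp.mul hq)
  have h3 := hc _ y (hq.mul hq)
  have e : (fun t : K => B1 C (1 + t * s) (1 - t * s) v y) = fun t : K =>
      ((1 + t * s) * (1 + t * s) * C.N v - (1 + t * s) * (1 - t * s) * C.T v) • (1 : D) +
        ((1 + t * s) * (1 - t * s)) • v + ((1 - t * s) * (1 - t * s)) • y := by
    funext t
    rw [B1, sq, sq]
  rw [e]
  exact (h1.add h2).add h3

theorem exists_alpha [Infinite k] (h : SCub C)
    (hk : ∀ c : k, star (algebraMap k K c) = algebraMap k K c) (h2 : (2 : k) ≠ 0) {s : K}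
    (hs : star s = -s) (hs0 : s ≠ 0) {ω : Ultrafilter ℕ} {ι : Type} [Fintype ι] {b : ι → K → ℝ}
    (hb : Comps B a b) {v : ℕ → D} (bv : Bd B a ω v)
    (hv : Eqv B a ω (fun j => star (v j) * v j) fun _ => 1) :
    ∃ α : K, ∀ i, Pos (b i) ω fun j => C.N (B1 C α (star α) (v j) (star (v j))) := by
  have h2K : (2 : K) ≠ 0 := by
    have := (map_ne_zero (algebraMap k K)).2 h2
    rwa [map_ofNat] at this
  have hv' := unit_comm h hk bv hv
  have hNN := N_unit h hk h2 (C := C) bv hv'
  have bN := Bd.N (C := C) h2 bv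
  have hN : ∀ i, Pos (b i) ω fun j => C.N (v j) := by
    intro i
    refine hb.pos_of_mul (g := fun j => star (C.N (v j))) ?_ (BdK.star h hk bN)
    exact hb.pos_eqK hNN (Pos.const (hb.sz i) one_ne_zero)
  have hfin : ∀ i, {t : K | Tendsto (fun j => b i (C.N (B1 C (1 + t * s) (1 - t * s) (v j)
      (star (v j))))) ω (𝓝 0)}.Finite := by
    intro i
    refine (hb.sz i).finite_null (f := fun j t => C.N (B1 C (1 + t * s) (1 - t * s) (v j)
      (star (v j)))) (fun j => (PF.B1f s (v j) (star (v j))).Nf h2K) (t₀ := s⁻¹) ?_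
    have e : (fun j => C.N (B1 C (1 + s⁻¹ * s) (1 - s⁻¹ * s) (v j) (star (v j)))) =
        fun j => 64 * (C.N (v j) * C.N (v j) * C.N (v j)) := by
      funext j
      rw [inv_mul_cancel₀ hs0, sub_self, B1]
      have e1 : ((1 + 1 : K) ^ 2 * C.N (v j) - (1 + 1) * 0 * C.T (v j)) • (1 : D) +
          ((1 + 1) * 0 : K) • v j + (0 : K) ^ 2 • star (v j) = (4 * C.N (v j)) • (1 : D) := by
        rw [mul_zero, zero_mul, sub_zero, zero_smul, add_zero, zero_pow two_ne_zero, zero_smul,
          add_zero]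
        congr 1
        ring
      rw [e1, C.N_smul, C.N_one]
      ring
    have h64 : (64 : K) ≠ 0 := by
      have h3 : (64 : K) = 2 ^ 6 := by norm_num
      rw [h3]
      exact pow_ne_zero _ h2K
    have h3 : Pos (b i) ω fun j => C.N (B1 C (1 + s⁻¹ * s) (1 - s⁻¹ * s) (v j) (star (v j))) := by
      rw [e]
      exact Pos.mul (hb.sz i) (Pos.const (hb.sz i) h64)
        (Pos.mul (hb.sz i) (Pos.mul (hb.sz i) (hN i) (hN i)) (hN i))
    exact h3.not
  have hfin' : (⋃ i, (fun t : k => algebraMap k K t) ⁻¹' {t : K | Tendsto (fun j => b i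
      (C.N (B1 C (1 + t * s) (1 - t * s) (v j) (star (v j))))) ω (𝓝 0)}).Finite :=
    Set.finite_iUnion fun i => (hfin i).preimage (algebraMap k K).injective.injOn
  obtain ⟨t, ht⟩ := hfin'.exists_notMem
  refine ⟨1 + algebraMap k K t * s, fun i => Pos.of_not (hb.sz i) ?_⟩
  have h3 : ¬ Tendsto (fun j => b i (C.N (B1 C (1 + algebraMap k K t * s)
      (1 - algebraMap k K t * s) (v j) (star (v j))))) ω (𝓝 0) := by
    intro h4
    exact ht (Set.mem_iUnion.mpr ⟨i, h4⟩)
  have h4 : star (1 + algebraMap k K t * s) = 1 - algebraMap k K t * s := by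
    rw [star_add, star_mul', star_one, hk, hs]
    ring
  rwa [h4]

end alpha

end Vale.Agent.P011.H3
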