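import Vale.Agent.P011.H565.P11NF
import Vale.Agent.P011.H63.EndD
import Vale.Agent.P011.H976.T1Of

/-!
**The core of the theorem on solvable quotients, from the line theorem.**
`UD D` is the group of the unitary elements of `D`, `c` a homomorphism from `UD D` to a finite
group. The line statement `LineAt` says that `c (cay τ) = 1` implies `c (cay (τ + b)) = 1` for
`b` in `k` and `τ` in `k(σ)`, where `σ` is any symmetric element which is split regular at the
place `q`.
-/

open NumberField IsDedekindDomain Module Filter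

set_option linter.unusedSectionVars false

namespace Vale.Agent.P011.H3

open Vale.Agent.P011.Arith Vale.Agent.P011.Even Vale.Agent.P011.Two Vale.Agent.P011.One
  Vale.Agent.P011.H182 Vale.Agent.P011.H976

section adj

variable {k D : Type*} [Field k] [DivisionRing D] [Algebra k D]

/-- The subalgebra generated by an integral element is closed under inverses. -/
theorem inv_mem_adjoin {σ : D} (hint : IsIntegral k σ) {x : D} (hx : x ∈ Algebra.adjoin k {σ}) :
    x⁻¹ ∈ Algebra.adjoin k {σ} := by
  have : Fact (Irreducible (minpoly k σ)) := ⟨minpoly.irreducible hint⟩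
  obtain ⟨a, rfl⟩ := H63.mem_range_emb.1 hx
  exact H63.mem_range_emb.2 ⟨a⁻¹, map_inv₀ _ _⟩

/-- The Cayley transform of `σ` has the form `x + y δ` with `x`, `y` in `k(σ)`. -/
theorem cay_eq {σ δ u : D} {d : k} (hint : IsIntegral k σ) (hcom : Commute δ σ)
    (hd : δ * δ = algebraMap k D d) (h1 : σ - δ ≠ 0) (h3 : σ + δ ≠ 0) (hu : u * (σ - δ) = σ + δ) :
    ∃ x ∈ Algebra.adjoin k {σ}, ∃ y ∈ Algebra.adjoin k {σ}, u = x + y * δ := by
  have hσ : σ ∈ Algebra.adjoin k {σ} := Algebra.subset_adjoin rfl
  have hdm : algebraMap k D d ∈ Algebra.adjoin k {σ} := Subalgebra.algebraMap_mem _ d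
  have hN : σ * σ - algebraMap k D d = (σ - δ) * (σ + δ) := by
    rw [sub_mul, mul_add, mul_add, hcom.eq, hd]
    abel
  have hN0 : σ * σ - algebraMap k D d ≠ 0 := by
    rw [hN]
    exact mul_ne_zero h1 h3
  have hNm : σ * σ - algebraMap k D d ∈ Algebra.adjoin k {σ} := sub_mem (mul_mem hσ hσ) hdm
  have hIm := inv_mem_adjoin hint hNm
  have hcN : Commute δ (σ * σ - algebraMap k D d) :=
    (hcom.mul_right hcom).sub_right (Algebra.commutes d δ).symm
  refine ⟨(σ * σ + algebraMap k D d) * (σ * σ - algebraMap k D d)⁻¹,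
    mul_mem (add_mem (mul_mem hσ hσ) hdm) hIm, (σ + σ) * (σ * σ - algebraMap k D d)⁻¹,
    mul_mem (add_mem hσ hσ) hIm, ?_⟩
  have h4 : u * (σ * σ - algebraMap k D d) =
      (σ * σ + algebraMap k D d) + (σ + σ) * δ := by
    rw [hN, ← mul_assoc, hu, mul_add, add_mul, add_mul, hcom.eq, hd, add_mul]
    abel
  have h5 : (σ * σ - algebraMap k D d)⁻¹ * δ = δ * (σ * σ - algebraMap k D d)⁻¹ :=
    (hcN.inv_right₀).eq.symm
  rw [mul_assoc (σ + σ), h5, ← mul_assoc, ← add_mul, ← h4, mul_assoc, mul_inv_cancel₀ hN0, mul_one]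

end adj

variable {k K D : Type} [Field k] [NumberField k] [Field K] [NumberField K] [StarRing K]
  [DivisionRing D] [StarRing D] [Algebra k K] [Algebra k D] [Algebra K D] [IsScalarTower k K D]
  {d : kˣ} {s : K} {Ω : Type} [Field Ω] [Algebra K Ω] {n M : ℕ}

/-- The line statement for the homomorphism `c`, at the place `q` and with the splitting `f0`. -/
def LineAt (s : K) {q : HeightOneSpectrum (𝓞 k)}
    (f0 : D →+* Matrix (Fin n) (Fin n) (q.adicCompletion k)) {E : Type*} [Group E]
    (c : UD D →* E) : Prop :=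
  ∀ σ : D, star σ = σ → f0 σ ∈ H210.SR (Fin n) (q.adicCompletion k) →
    ∀ τ ∈ Algebra.adjoin k {σ}, ∀ (b : k) (u v : UD D),
      ((u : Dˣ) : D) * (τ - algebraMap K D s) = τ + algebraMap K D s →
      ((v : Dˣ) : D) * (τ + algebraMap k D b - algebraMap K D s) =
        τ + algebraMap k D b + algebraMap K D s → c u = 1 → c v = 1

/-- A homomorphism to a finite group which satisfies the line statement and kills `-1` is
trivial. -/
theorem eq_one_of_line (hS : Setting k K D d s) (hn : 0 < n) (hdeg : finrank K D = n ^ 2)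
    {q : HeightOneSpectrum (𝓞 k)} {φ : K →+* q.adicCompletion k}
    {f0 : D →+* Matrix (Fin n) (Fin n) (q.adicCompletion k)} (h : SplAt K D n q φ f0)
    {E : Type*} [Group E] [Finite E] (c : UD D →* E)
    (hneg : ∀ u : UD D, ((u : Dˣ) : D) = -1 → c u = 1) (hline : LineAt s f0 c) (u : UD D) :
    c u = 1 := by
  have := hS.fin
  have hfk : FiniteDimensional k K := Module.finite_of_finrank_pos (by rw [hS.rank]; norm_num)
  have hfD : FiniteDimensional k D := FiniteDimensional.trans k K D
  have h2 : (2 : k) ≠ 0 := two_ne_zero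
  have h2D : (2 : D) ≠ 0 := by
    have h := (map_ne_zero (algebraMap k D)).2 h2
    rwa [map_ofNat] at h
  have hδ : star (algebraMap K D s) = -algebraMap K D s := H565.star_algS hS
  have hδ0 : algebraMap K D s ≠ 0 := by
    intro h0
    apply H565.star_algS_ne hS
    rw [h0, star_zero]
  have hd : algebraMap K D s * algebraMap K D s = algebraMap k D (d : k) := by
    rw [← map_mul, ← sq, hS.sq, ← IsScalarTower.algebraMap_apply]
  have hst : ∀ a : k, star (algebraMap k D a) = algebraMap k D a := by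
    intro a
    rw [IsScalarTower.algebraMap_apply k K D, star_algK hS, (hS.fix _).2 ⟨a, rfl⟩]
  refine H565.hom_eq_one_NF hS hn hdeg h c (fun σ hσ hSR u hu => ?_) u
  have hint : IsIntegral k σ := Algebra.IsIntegral.isIntegral σ
  have hcom : Commute (algebraMap K D s) σ := H565.algS_comm σ
  obtain ⟨h1, h3⟩ := H63.sub_ne_of_star hσ hδ h2D hδ0
  obtain ⟨x, hx, y, hy, hxy⟩ := cay_eq hint hcom hd h1 h3 hu
  exact H63.end_adjoin h2 hst (UD D) (fun g => mem_UD) c (algebraMap K D s) hδ d hd hδ0 σ hσ hint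
    hcom hneg (hline σ hσ hSR) x hx y hy u hxy

/-- The line theorem at the place `q`: the line statement holds for every target. -/
def LineThm (s : K) (f : D →ₐ[K] Matrix (Fin n) (Fin n) Ω) (B : Basis (Fin M) k D)
    {q : HeightOneSpectrum (𝓞 k)} (f0 : D →+* Matrix (Fin n) (Fin n) (q.adicCompletion k)) :
    Prop :=
  ∀ (E : Type) (_ : Group E) (c : UD D →* E) (R : Subgroup E),
    Target0 (lvF f B {q}) c R → (∀ u : UD D, (∀ g ∈ GD f, u * g = g * u) → c u = 1) →
      LineAt s f0 c

/-- **The core, from the line theorem.** -/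
theorem core_false (hS : Setting k K D d s) (hn : 0 < n) (hdeg : finrank K D = n ^ 2)
    (f : D →ₐ[K] Matrix (Fin n) (Fin n) Ω) (B : Basis (Fin M) k D)
    {q : HeightOneSpectrum (𝓞 k)} {φ : K →+* q.adicCompletion k}
    {f0 : D →+* Matrix (Fin n) (Fin n) (q.adicCompletion k)} (h : SplAt K D n q φ f0)
    (hL : LineThm s f B f0) : CoreAt f B q := by
  intro E iE c R hT hc
  have := hT.fin
  have hone := eq_one_of_line hS hn hdeg h c (fun u hu => hc u fun g _ => by
    apply Subtype.ext
    apply Units.ext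
    rw [Subgroup.coe_mul, Units.val_mul, Subgroup.coe_mul, Units.val_mul, hu, neg_one_mul,
      mul_neg_one]) (hL E iE c R hT hc)
  obtain ⟨a, ha, b, hb, hab⟩ := hT.nonab
  obtain ⟨u, rfl⟩ := hT.surj a
  exact hab (by rw [hone u, one_mul, mul_one])

/-- **Every finite quotient of `SU_1(D, *)` is solvable**, from the line theorem and strong
approximation at the completely split places outside a finite set. -/
theorem t1_of_line (hS : Setting k K D d s) (hn : 3 ≤ n) (hdeg : finrank K D = n ^ 2)
    (f : D →ₐ[K] Matrix (Fin n) (Fin n) Ω) (B : Basis (Fin M) k D)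
    (T : Set (HeightOneSpectrum (𝓞 k))) (hT : T.Finite)
    (h : ∀ (q : HeightOneSpectrum (𝓞 k)) (φ : K →+* q.adicCompletion k)
      (f0 : D →+* Matrix (Fin n) (Fin n) (q.adicCompletion k)), q ∉ T → SplAt K D n q φ f0 →
      LineThm s f B f0 ∧ SAAt f B q)
    (N : Subgroup (SUD f)) [N.Normal] (hi : N.index ≠ 0) : Group.IsSolvable (SUD f ⧸ N) :=
  t1_of hS hn hdeg f B T hT (fun q φ f0 hq hs =>
    ⟨core_false hS (by omega) hdeg f B hs (h q φ f0 hq hs).1, (h q φ f0 hq hs).2⟩) N hi

end Vale.Agent.P011.H3
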