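import Vale.Agent.P011.H929.LocPair

/-!
Size functions on the centre of the division algebra, and sequences of targets.
-/

open Module Filter Topology

set_option linter.unusedSectionVars false

namespace Vale.Agent.P011.H3

open Vale.Agent.P011.H182 Vale.Agent.P011.H775 Vale.Agent.P011.H929

/-- A size function on a field: up to constants an absolute value. -/
structure Sz {K : Type} [Field K] (b : K → ℝ) : Prop where
  nonneg : ∀ x, 0 ≤ b x
  zero : b 0 = 0
  one : 0 < b 1
  add : ∀ x y, b (x + y) ≤ b x + b y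
  mul : ∃ c : ℝ, 0 < c ∧ ∀ x y, b (x * y) ≤ c * (b x * b y)
  low : ∃ c : ℝ, 0 < c ∧ ∀ x y, b x * b y ≤ c * b (x * y)

section defs

variable {k K D : Type} [Field k] [Field K] [DivisionRing D] [Algebra k K]
  [Algebra k D] [Algebra K D] {N : ℕ}

/-- The size of an element of `K`, measured in `D`. -/
noncomputable def nK (B : Basis (Fin N) k D) (a : AbsoluteValue k ℝ) (x : K) : ℝ :=
  na B a (algebraMap K D x)

/-- The size functions `b i` are the components over the absolute value `a`. -/
structure Comps (B : Basis (Fin N) k D) (a : AbsoluteValue k ℝ) {ι : Type} [Fintype ι]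
    (b : ι → K → ℝ) : Prop where
  ne : Nonempty ι
  sz : ∀ i, Sz (b i)
  le : ∃ c : ℝ, 0 < c ∧ ∀ i x, b i x ≤ c * nK B a x
  ge : ∃ c : ℝ, 0 < c ∧ ∀ x, nK B a x ≤ c * ∑ i, b i x

/-- The sequence `Q` stays away from the multiples of `P`, with respect to the size function
`b`, along the filter `ω`. -/
def NS (ω : Filter ℕ) (b : K → ℝ) (P : D) (Q : ℕ → D) : Prop :=
  ∀ (m : ℕ) (t : Fin m → D) (e : ℕ → K) (R : ℕ → Fin m → K),
    (∀ j, Q j = e j • P + ∑ i, R j i • t i) → ∃ i, ¬ Tendsto (fun j => b (R j i)) ω (𝓝 0)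

/-- A sequence of approximate unitary solutions `w` of `T ((x - 1) w) = 0` at `a` which are not
special. -/
structure Tgt [StarRing D] (C : Cub K D) (B : Basis (Fin N) k D) (a : AbsoluteValue k ℝ)
    (ω : Filter ℕ) (x : D) {ι : Type} (b : ι → K → ℝ) (w : ℕ → D) : Prop where
  bdd : ∃ R : ℝ, ∀ j, na B a (w j) ≤ R
  unit : Tendsto (fun j => na B a (star (w j) * w j - 1)) ω (𝓝 0)
  tr : Tendsto (fun j => nK B a (C.T ((x - 1) * w j))) ω (𝓝 0)
  ns : ∀ i, NS ω (b i) (x⁻¹ - 1) fun j => w j * (x - 1) * w j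

end defs

end Vale.Agent.P011.H3
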