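import Vale.Agent.P011.H14.Move
import Vale.Agent.P011.H14.Open
import Vale.Agent.P011.H321.Pair
import Vale.Agent.P011.H518.Star
import Vale.Agent.P011.H521.N3At
import Vale.Agent.P011.H95.InterNF
import Vale.Agent.P011.H976.PlusNF
import Vale.Agent.P011.H3.Siz

/-!
**The solvable step in degree three**, assembled from its pieces.
-/

open Module NumberField IsDedekindDomain Filter Topology
open scoped commutatorElement

set_option linter.unusedSectionVars false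
set_option linter.unusedVariables false

namespace Vale.Agent.P011.H3

open Vale.Agent.P011.Arith Vale.Agent.P011.Even Vale.Agent.P011.Two Vale.Agent.P011.One
  Vale.Agent.P011.H182 Vale.Agent.P011.H775 Vale.Agent.P011.H948 Vale.Agent.P011.H929
  Vale.Agent.P011.H976

/-- The statement of reachability. -/
def Reach {k K D : Type} [Field k] [NumberField k] [Field K] [DivisionRing D] [StarRing D]
    [Algebra k K] [Algebra k D] [Algebra K D] {M : ℕ} (C : Cub K D) (B : Basis (Fin M) k D)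
    (d : kˣ) : Prop :=
  ∀ x u : D, x * star x = 1 → C.N x = 1 → C.T x ≠ 3 → u * star u = 1 → C.T ((x - 1) * u) = 0 →
    ∀ P : Set (Pl k), P.Finite → ∀ w : Pl k → ℕ → D, (∀ p ∈ P, ∃ (ι : Type) (_ : Fintype ι)
      (b : ι → K → ℝ), Comps B (plAbv p) b ∧ ∀ ω : Filter ℕ, ω.NeBot → ω ≤ atTop →
        Tgt C B (plAbv p) ω x b (w p)) → ∀ ε : ℝ, 0 < ε → ∀ J : ℕ,
      ∃ w1 : D, w1 * star w1 = 1 ∧ C.T ((x - 1) * w1) = 0 ∧
        (∀ p ∈ P, ∃ j, J ≤ j ∧ na B (plAbv p) (w1 - w p j) < ε) ∧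
        ∀ v : HeightOneSpectrum (𝓞 k), (Sum.inl v : Pl k) ∉ P → d ∉ LS (v.valuation k) →
          GoodInt B v u (x * u) → GoodInt B v w1 (x * w1)

theorem exists_pos_le {ι : Type} {S : Set ι} (hS : S.Finite) {δ : ι → ℝ} (hδ : ∀ i, 0 < δ i) :
    ∃ ε : ℝ, 0 < ε ∧ ∀ i ∈ S, ε ≤ δ i := by
  by_cases hne : S.Nonempty
  · obtain ⟨i, -, hi⟩ := Set.exists_min_image S δ hS hne
    exact ⟨δ i, hδ i, hi⟩
  · exact ⟨1, one_pos, fun i hi => absurd ⟨i, hi⟩ hne⟩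

theorem na_real {k D : Type} [Field k] [NumberField k] [DivisionRing D] [Algebra k D] {M : ℕ}
    (B : Basis (Fin M) k D) (φ : k →+* ℝ) (x : D) :
    na B (plAbv (Sum.inr φ)) x = na B (cAbv (Complex.ofRealHom.comp φ)) x := by
  rw [na, na]
  refine Finset.sum_congr rfl fun i _ => ?_
  rw [plAbv_inr, cAbv_apply, RingHom.comp_apply, Complex.ofRealHom_eq_coe, Complex.norm_real,
    Real.norm_eq_abs]

section final

variable {k K D : Type} [Field k] [NumberField k] [Field K] [NumberField K] [StarRing K]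
  [DivisionRing D] [StarRing D] [Algebra k K] [Algebra k D] [Algebra K D] [IsScalarTower k K D]
  {d : kˣ} {s : K} {M : ℕ} {Ω : Type} [Field Ω] [Algebra K Ω]

/-- **The solvable step in degree three**, from its pieces. -/
theorem solvAt_of (hS : Setting k K D d s) (hdeg : finrank K D = 3 ^ 2)
    (f : D →ₐ[K] Matrix (Fin 3) (Fin 3) Ω) (B : Basis (Fin M) k D) (C : Cub K D)
    (hTf : (Tdiv k K D).Finite) (hSv : H518.Sv k f B) (hPr : H518.Pr k f B)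
    (hReach : Reach C B d)
    (hPart : ∀ P1 : Set (HeightOneSpectrum (𝓞 k)), P1.Finite → P1.Nonempty →
      ({v | (Sum.inl v : Pl k) ∈ Tdiv k K D} ⊆ P1) → ∀ x0 w0 : D, x0 * star x0 = 1 →
      w0 * star w0 = 1 → C.T ((x0 - 1) * w0) = 0 → x0 * w0 ≠ w0 * x0 →
      C.T x0 + C.T (star x0) ≠ 6 → ∃ ε : ℝ, 0 < ε ∧ ∀ x : D, x * star x = 1 →
        (∀ v ∈ P1, nm B (Sum.inl v) (x - x0) < ε) →
        (∀ φ : k →+* ℝ, nm B (Sum.inr φ) (x - x0) < ε) →
        ∃ w : D, w * star w = 1 ∧ C.T ((x - 1) * w) = 0)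
    (hAdj : ∀ (g0 : D), g0 * star g0 = 1 → ∀ ε : ℝ, 0 < ε → ∃ δ : ℝ, 0 < δ ∧ ∀ w w' u h : D,
      w * star w = 1 → w' * star w' = 1 → w ∉ Set.range (algebraMap K D) → u * star u = 1 →
      w' * u = u * w → h ≠ 0 → w' * h = h * w →
      (∀ v ∈ {v | (Sum.inl v : Pl k) ∈ Tdiv k K D}, na B (plAbv (Sum.inl v)) (h - g0) < δ) →
      ∃ u' : D, u' * star u' = 1 ∧ w' * u' = u' * w ∧
        ∀ v ∈ {v | (Sum.inl v : Pl k) ∈ Tdiv k K D}, na B (plAbv (Sum.inl v)) (u' - g0) < ε)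
    (hCf : ∀ v : HeightOneSpectrum (𝓞 k), ∃ (ι : Type) (_ : Fintype ι) (b : ι → K → ℝ),
      Comps B (plAbv (Sum.inl v)) b)
    (hCr : ∀ φ : k →+* ℝ, d ∉ LSR φ → ∃ (ι : Type) (_ : Fintype ι) (b : ι → K → ℝ),
      Comps B (plAbv (Sum.inr φ)) b)
    (hCn : ∀ v : HeightOneSpectrum (𝓞 k), d ∉ LS (v.valuation k) →
      Comps B (plAbv (Sum.inl v)) (fun _ : Unit => nK (K := K) B (plAbv (Sum.inl v))))
    (hq : ∀ F : Set (HeightOneSpectrum (𝓞 k)), F.Finite → ∃ q ∉ F, d ∈ LS (q.valuation k))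
    (htd : ∀ v : HeightOneSpectrum (𝓞 k), (Sum.inl v : Pl k) ∈ Tdiv k K D →
      d ∈ LS (v.valuation k))
    (ht1 : ∀ (a : AbsoluteValue k ℝ) (x0 : D), C.T x0 + C.T (star x0) ≠ 6 →
      ∃ δ : ℝ, 0 < δ ∧ ∀ x : D, x * star x = 1 → na B a (x - x0) < δ → C.T x ≠ 3)
    (ht2 : ∀ (a : AbsoluteValue k ℝ) (ι : Type) (_ : Fintype ι) (b : ι → K → ℝ), Comps B a b →
      ∀ x0 w0 g0 : D, x0 * star x0 = 1 → C.N x0 = 1 → w0 * star w0 = 1 → g0 * star g0 = 1 →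
      x0 * w0 * g0 = g0 * w0 → w0 ∉ Set.range (algebraMap K D) → x0 ≠ 1 → ∀ η : ℝ, 0 < η →
      ∃ γ : ℝ, 0 < γ ∧ ∀ x : D, x * star x = 1 → C.N x = 1 → na B a (x - x0) < γ →
        ∃ w : ℕ → D, (∀ ω : Filter ℕ, ω.NeBot → ω ≤ atTop → Tgt C B a ω x b w) ∧
          ∃ δ : ℝ, 0 < δ ∧ ∀ j, ∀ w1 : D, w1 * star w1 = 1 → C.T ((x - 1) * w1) = 0 →
            na B a (w1 - w j) < δ →
            x * w1 * H948.hr C (x * w1) w1 (g0 * (dP C w0)⁻¹) =
              H948.hr C (x * w1) w1 (g0 * (dP C w0)⁻¹) * w1 ∧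
            na B a (H948.hr C (x * w1) w1 (g0 * (dP C w0)⁻¹) - g0) < η ∧
            na B a (star (H948.hr C (x * w1) w1 (g0 * (dP C w0)⁻¹)) *
              H948.hr C (x * w1) w1 (g0 * (dP C w0)⁻¹) - 1) < η ∧
            na B a (w1 - w0) < η)
    (ht3 : ∀ (a : AbsoluteValue k ℝ) (x : D), x * star x = 1 → C.N x = 1 → LocPair1 C B a x →
      ∀ η : ℝ, 0 < η → ∃ w : ℕ → D, (∀ ω : Filter ℕ, ω.NeBot → ω ≤ atTop →
        Tgt C B a ω x (fun _ : Unit => nK (K := K) B a) w) ∧ ∃ (J : ℕ) (δ : ℝ), 0 < δ ∧ ∀ j, J ≤ j →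
          ∀ w1 : D, w1 * star w1 = 1 → C.T ((x - 1) * w1) = 0 → na B a (w1 - w j) < δ →
          ∃ h : D, x * w1 * h = h * w1 ∧ na B a (star h * h - 1) < η) :
    SolvAt k f B := by
  classical
  intro Q H hQ hH hQH hi hpf hprime hc hV
  have hfin := hS.fin
  have hcen := hS.cen
  have hst : ∀ (c : k) (x : D), star (c • x) = c • star x :=
    fun c x => (Setting.sig hS).map_smul c x
  have hsc : SCub C := sCub_of C hdeg hS.star_smul
  obtain ⟨-, hdet, -⟩ := C.of_split hdeg f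
  have hNG : ∀ x : SUD f, C.N ((x : Dˣ) : D) = 1 := by
    intro x
    apply (algebraMap K Ω).injective
    rw [← hdet, map_one]
    exact x.2.2
  have hUG : ∀ x : SUD f, ((x : Dˣ) : D) * star ((x : Dˣ) : D) = 1 := fun x => x.2.1
  -- the end
  obtain ⟨ε0, hε0, hstar⟩ := H518.star_of hst hTf hQ hpf hc hSv hPr
  -- the class
  obtain ⟨εc, hεc, hclass⟩ := class_global hS Nat.prime_three hdeg B
  -- the places
  set Td : Set (HeightOneSpectrum (𝓞 k)) := {v | (Sum.inl v : Pl k) ∈ Tdiv k K D} with hTd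
  have hTdf : Td.Finite := by
    have h1 := hTf.preimage (f := fun v : HeightOneSpectrum (𝓞 k) => (Sum.inl v : Pl k))
      Sum.inl_injective.injOn
    exact h1
  obtain ⟨v0, -, -⟩ := hq ∅ Set.finite_empty
  set S0 : Set (HeightOneSpectrum (𝓞 k)) := insert v0 (Td ∪ Bad B ∪
    {v | v.valuation k (2 : k) ≠ 1} ∪ {v | v.valuation k (d : k) ≠ 1}) with hS0
  have hS0f : S0.Finite := by
    refine ((((hTdf.union (finite_bad B)).union ?_).union ?_)).insert _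
    · exact finite_ne_one (Units.mk0 (2 : k) two_ne_zero)
    · exact finite_ne_one d
  have hTdS : Td ⊆ S0 := fun v hv => Set.mem_insert_of_mem _ (Or.inl (Or.inl (Or.inl hv)))
  have hBadS : Bad B ⊆ S0 := fun v hv => Set.mem_insert_of_mem _ (Or.inl (Or.inl (Or.inr hv)))
  have h2S : ∀ v ∉ S0, v.valuation k (2 : k) = 1 := by
    intro v hv
    by_contra h
    exact hv (Set.mem_insert_of_mem _ (Or.inl (Or.inr h)))
  have hdS : ∀ v ∉ S0, v.valuation k (d : k) = 1 := by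
    intro v hv
    by_contra h
    exact hv (Set.mem_insert_of_mem _ (Or.inr h))
  obtain ⟨q, hqS, hqd⟩ := hq S0 hS0f
  have hqT : (Sum.inl q : Pl k) ∉ Tdiv k K D := fun h => hqS (hTdS h)
  -- the pair
  obtain ⟨ηH, hηH, hH0⟩ := hpf
  obtain ⟨εH, hεH, hεH'⟩ := exists_pos_le hTdf (δ := fun v => ηH (Sum.inl v)) fun v => hηH _
  obtain ⟨g0, w0, hg0, hw0, hg0N, hw0N, hnear, hx0all⟩ :=
    H321.Pair.exists_pair' hS hdeg C B hTdf (ε := min εH (ε0 / 2)) (by positivity)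
  obtain ⟨hx0, hx0N, hT0, hcomm0, hN3⟩ := hx0all _ rfl
  set x0 : D := g0 * w0 * g0⁻¹ * w0⁻¹ with hx0d
  have hg00 : g0 ≠ 0 := left_ne_zero_of_mul_eq_one hg0
  have hw00 : w0 ≠ 0 := left_ne_zero_of_mul_eq_one hw0
  have hx0w : x0 * w0 * g0 = g0 * w0 := by
    rw [hx0d]
    simp only [mul_assoc]
    rw [inv_mul_cancel_left₀ hw00, inv_mul_cancel₀ hg00, mul_one]
  have hw0K : w0 ∉ Set.range (algebraMap K D) := by
    rintro ⟨c, hc0⟩
    apply hcomm0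
    rw [← hc0]
    exact (Algebra.commutes c x0).symm
  have hx01 : x0 ≠ 1 := by
    intro h
    apply hcomm0
    rw [h, one_mul, mul_one]
  -- `x0` is in `H`
  obtain ⟨x0', hx0H, hx0'⟩ : ∃ x ∈ H, ((x : Dˣ) : D) = x0 := by
    refine hH0 x0 ⟨hx0, ?_⟩ ?_
    · rw [hdet, hx0N, map_one]
    · intro p hp
      obtain ⟨v, rfl, -⟩ := id hp
      have h1 := (hnear v hp).2.2
      exact h1.trans_le ((min_le_left _ _).trans (hεH' v hp))
  -- adjustment at `Tdiv`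
  obtain ⟨δA, hδA, hAdj⟩ := hAdj g0 hg0 (ε0 / 2) (half_pos hε0)
  -- the places of the pair
  set P2 : Set (Pl k) := Sum.inl '' {v | v ∈ S0 ∧ (d ∉ LS (v.valuation k) ∨ v ∈ Td)} ∪
    Sum.inr '' {φ | d ∉ LSR φ} with hP2
  have hP2f : P2.Finite := by
    refine Set.Finite.union (Set.Finite.image _ (hS0f.subset fun v hv => hv.1)) ?_
    exact Set.Finite.image _ (Set.toFinite _)
  have hcomp : ∀ p ∈ P2, ∃ (ι : Type) (_ : Fintype ι) (b : ι → K → ℝ), Comps B (plAbv p) b := by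
    rintro p (⟨v, hv, rfl⟩ | ⟨φ, hφ, rfl⟩)
    · exact hCf v
    · exact hCr φ hφ
  -- the margin
  have hηp : ∀ p : Pl k, 0 < min (min (εc p) (min δA (ε0 / 2))) (na B (plAbv p) (1 : D)) := by
    intro p
    have := hεc p
    have := na_pos B (plAbv p) (one_ne_zero (α := D))
    positivity
  have hγ : ∀ p : Pl k, ∃ γ : ℝ, 0 < γ ∧ (p ∈ P2 → ∀ x : D, x * star x = 1 → C.N x = 1 →
      na B (plAbv p) (x - x0) < γ → ∃ (ι : Type) (_ : Fintype ι) (b : ι → K → ℝ),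
        Comps B (plAbv p) b ∧ ∃ w : ℕ → D,
        (∀ ω : Filter ℕ, ω.NeBot → ω ≤ atTop → Tgt C B (plAbv p) ω x b w) ∧
          ∃ δ : ℝ, 0 < δ ∧ ∀ j, ∀ w1 : D, w1 * star w1 = 1 → C.T ((x - 1) * w1) = 0 →
            na B (plAbv p) (w1 - w j) < δ →
            x * w1 * H948.hr C (x * w1) w1 (g0 * (dP C w0)⁻¹) =
              H948.hr C (x * w1) w1 (g0 * (dP C w0)⁻¹) * w1 ∧
            na B (plAbv p) (H948.hr C (x * w1) w1 (g0 * (dP C w0)⁻¹) - g0) <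
              min (min (εc p) (min δA (ε0 / 2))) (na B (plAbv p) (1 : D)) ∧
            na B (plAbv p) (star (H948.hr C (x * w1) w1 (g0 * (dP C w0)⁻¹)) *
              H948.hr C (x * w1) w1 (g0 * (dP C w0)⁻¹) - 1) <
              min (min (εc p) (min δA (ε0 / 2))) (na B (plAbv p) (1 : D)) ∧
            na B (plAbv p) (w1 - w0) <
              min (min (εc p) (min δA (ε0 / 2))) (na B (plAbv p) (1 : D))) := by
    intro p
    by_cases hp : p ∈ P2
    · obtain ⟨ι, hι, b, hb⟩ := hcomp p hp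
      obtain ⟨γ, hγ, h1⟩ := ht2 (plAbv p) ι hι b hb x0 w0 g0 hx0 hx0N hw0 hg0 hx0w hw0K hx01 _
        (hηp p)
      refine ⟨γ, hγ, fun _ x hx hxN hxn => ?_⟩
      obtain ⟨w, hw, h2⟩ := h1 x hx hxN hxn
      exact ⟨ι, hι, b, hb, w, hw, h2⟩
    · exact ⟨1, one_pos, fun h => absurd h hp⟩
  choose γ hγ0 hγ using hγ
  obtain ⟨δ1, hδ1, hT1⟩ := ht1 (fa v0) x0 hN3
  obtain ⟨ε1, hε1, hpart⟩ := hPart (insert v0 Td) (hTdf.insert _) ⟨v0, Set.mem_insert _ _⟩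
    (Set.subset_insert _ _) x0 w0 hx0 hw0 hT0 hcomm0 hN3
  obtain ⟨γ', hγ'0, hγ'⟩ := exists_pos_le hP2f hγ0
  obtain ⟨εx, hεx, hεx1, hεx2, hεx3⟩ : ∃ ε : ℝ, 0 < ε ∧ ε ≤ γ' ∧ ε ≤ δ1 ∧ ε ≤ ε1 :=
    ⟨min γ' (min δ1 ε1), by positivity, min_le_left _ _,
      (min_le_right _ _).trans (min_le_left _ _), (min_le_right _ _).trans (min_le_right _ _)⟩
  -- an element outside `Q`
  obtain ⟨y, hyH, hyQ⟩ : ∃ y ∈ H, y ∉ Q := by
    by_contra hcon
    push Not at hcon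
    have h1 : H ≤ Q := fun y hy => hcon y hy
    rw [Subgroup.relIndex_eq_one.mpr h1] at hprime
    exact Nat.not_prime_one hprime
  have hQ' : Q.Normal := hQ
  obtain ⟨x1, hx1Q, hx1T, hx1c, -⟩ := coset_strong hS (by norm_num) hdeg f B (Q := Q) (H := H) hi
    hV (q := q) hqT (T := S0) hS0f hBadS (fun v hv => hTdS hv) (x := y) (w := x0') hyH hx0H
    (ε := εx / 2) (half_pos hεx)
  simp only [hx0'] at hx1T hx1c
  have hqne : ∀ v ∈ S0, v ≠ q := fun v hv h => hqS (h ▸ hv)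
  have hx1u := hUG x1
  have hx1N := hNG x1
  have hx13 : C.T ((x1 : Dˣ) : D) ≠ 3 := by
    refine hT1 _ hx1u ?_
    have := hx1T v0 (Set.mem_insert _ _) (hqne _ (Set.mem_insert _ _))
    linarith
  -- Part I
  obtain ⟨u, hu, huT⟩ := hpart ((x1 : Dˣ) : D) hx1u (by
      intro v hv
      have hvS : v ∈ S0 := by
        rcases hv with rfl | hv
        · exact Set.mem_insert _ _
        · exact hTdS hv
      have h1 := hx1T v hvS (hqne v hvS)
      have h2 : nm B (Sum.inl v) (((x1 : Dˣ) : D) - x0) < εx / 2 := h1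
      linarith) (by
      intro φ
      have h1 := hx1c (Complex.ofRealHom.comp φ)
      rw [← na_real] at h1
      have h2 : nm B (Sum.inr φ) (((x1 : Dˣ) : D) - x0) < εx / 2 := h1
      linarith)
  have hu0 : u ≠ 0 := left_ne_zero_of_mul_eq_one hu
  obtain ⟨e1, e2, e3⟩ := hsc.same hx1u hx1N hu huT
  have huK : u ∉ Set.range (algebraMap K D) := H95.c_not_mem C hx13 hu0 huT
  have hxuK : ((x1 : Dˣ) : D) * u ∉ Set.range (algebraMap K D) :=
    H95.not_range_of_same C huK e1 e2 e3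
  obtain ⟨g, hg0', hgx⟩ := H95.exists_inter C huK e1 e2 e3
  -- the bad places of `u`
  set S1 : Set (HeightOneSpectrum (𝓞 k)) := {v | ¬ GoodInt B v u (((x1 : Dˣ) : D) * u)} ∩
    {v | v ∉ S0 ∧ d ∉ LS (v.valuation k)} with hS1
  have hS1f : S1.Finite := (H95.finite_not_goodInt B hg0' hgx).inter_of_left _
  obtain ⟨x2, hx2Q, f1, f2, f3, hx2P, hx2T, hx2c, hx2g⟩ := H14.move3 hS hdeg C f B (Q := Q) hi
    (q := q) hqT (T := S0) (S₁ := S1) hS0f hBadS hS1f (by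
      intro v hv
      refine ⟨hv.2.1, ?_, fun h => hv.2.1 (hTdS h)⟩
      rintro rfl
      exact hv.2.2 hqd) x1 (w := u) hu (fun v => LocPair1 C B (fa v)) (by
      intro v hv
      have hz : (((x1 : Dˣ) : D) * u) * star (((x1 : Dˣ) : D) * u) = 1 := by
        rw [star_mul, mul_assoc, ← mul_assoc u, hu, one_mul, hx1u]
      exact H521.n3_at hS hdeg C f B v hv.2.2 hz hu hxuK huK e3) (ε := εx / 2) (half_pos hεx)
  have hx2u := hUG x2
  have hx2N := hNG x2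
  have hx2Tu : C.T ((((x2 : Dˣ) : D) - 1) * u) = 0 := by
    rw [sub_mul, one_mul, map_sub, f1, e1, sub_self]
  have hx20 : ∀ v ∈ S0, na B (fa v) (((x2 : Dˣ) : D) - x0) < εx := by
    intro v hv
    have h1 := hx1T v hv (hqne v hv)
    have h2 := hx2T v hv (hqne v hv)
    have e : ((x2 : Dˣ) : D) - x0 = (((x2 : Dˣ) : D) - ((x1 : Dˣ) : D)) +
      (((x1 : Dˣ) : D) - x0) := by abel
    rw [e]
    refine (na_add_le B _ _ _).trans_lt ?_
    linarith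
  have hx20c : ∀ φ : k →+* ℝ, na B (plAbv (Sum.inr φ)) (((x2 : Dˣ) : D) - x0) < εx := by
    intro φ
    have h1 := hx1c (Complex.ofRealHom.comp φ)
    have h2 := hx2c (Complex.ofRealHom.comp φ)
    rw [← na_real] at h1 h2
    have e : ((x2 : Dˣ) : D) - x0 = (((x2 : Dˣ) : D) - ((x1 : Dˣ) : D)) +
      (((x1 : Dˣ) : D) - x0) := by abel
    rw [e]
    refine (na_add_le B _ _ _).trans_lt ?_
    linarith
  have hx23 : C.T ((x2 : Dˣ) : D) ≠ 3 :=
    hT1 _ hx2u ((hx20 v0 (Set.mem_insert _ _)).trans_le hεx2)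
  -- the targets
  set P : Set (Pl k) := P2 ∪ Sum.inl '' S1 with hP
  have hPf : P.Finite := hP2f.union (hS1f.image _)
  have htar : ∀ p : Pl k, ∃ (w : ℕ → D) (δ : ℝ) (J : ℕ), 0 < δ ∧ (p ∈ P →
      (∃ (ι : Type) (_ : Fintype ι) (b : ι → K → ℝ), Comps B (plAbv p) b ∧
        ∀ ω : Filter ℕ, ω.NeBot → ω ≤ atTop → Tgt C B (plAbv p) ω ((x2 : Dˣ) : D) b w) ∧
      ∀ j, J ≤ j → ∀ w1 : D, w1 * star w1 = 1 → C.T ((((x2 : Dˣ) : D) - 1) * w1) = 0 →
        na B (plAbv p) (w1 - w j) < δ →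
        (∃ h : D, ((x2 : Dˣ) : D) * w1 * h = h * w1 ∧
          na B (plAbv p) (star h * h - 1) < εc p) ∧
        (p ∈ P2 → ((x2 : Dˣ) : D) * w1 * H948.hr C (((x2 : Dˣ) : D) * w1) w1 (g0 * (dP C w0)⁻¹) =
              H948.hr C (((x2 : Dˣ) : D) * w1) w1 (g0 * (dP C w0)⁻¹) * w1 ∧
            na B (plAbv p) (H948.hr C (((x2 : Dˣ) : D) * w1) w1 (g0 * (dP C w0)⁻¹) - g0) < δA ∧
            H948.hr C (((x2 : Dˣ) : D) * w1) w1 (g0 * (dP C w0)⁻¹) ≠ 0 ∧
            na B (plAbv p) (w1 - w0) < ε0 / 2)) := by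
    intro p
    by_cases hp2 : p ∈ P2
    · have hx2p : na B (plAbv p) (((x2 : Dˣ) : D) - x0) < γ p := by
        have h1 : εx ≤ γ p := hεx1.trans (hγ' p hp2)
        rcases hp2 with ⟨v, hv, rfl⟩ | ⟨φ, hφ, rfl⟩
        · exact (hx20 v hv.1).trans_le h1
        · exact (hx20c φ).trans_le h1
      obtain ⟨ι, hι, b, hb, w, hw, δ, hδ, h1⟩ := hγ p hp2 _ hx2u hx2N hx2p
      refine ⟨w, δ, 0, hδ, fun _ => ⟨⟨ι, hι, b, hb, hw⟩, fun j _ w1 hw1 hT hn => ?_⟩⟩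
      obtain ⟨h2, h3, h4, h5⟩ := h1 j w1 hw1 hT hn
      have ha : min (min (εc p) (min δA (ε0 / 2))) (na B (plAbv p) (1 : D)) ≤ εc p :=
        (min_le_left _ _).trans (min_le_left _ _)
      have hb' : min (min (εc p) (min δA (ε0 / 2))) (na B (plAbv p) (1 : D)) ≤ δA :=
        (min_le_left _ _).trans ((min_le_right _ _).trans (min_le_left _ _))
      have hc' : min (min (εc p) (min δA (ε0 / 2))) (na B (plAbv p) (1 : D)) ≤ ε0 / 2 :=
        (min_le_left _ _).trans ((min_le_right _ _).trans (min_le_right _ _))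
      have hd' : min (min (εc p) (min δA (ε0 / 2))) (na B (plAbv p) (1 : D)) ≤
        na B (plAbv p) (1 : D) := min_le_right _ _
      refine ⟨⟨_, h2, h4.trans_le ha⟩, fun _ => ⟨h2, h3.trans_le hb', ?_, h5.trans_le hc'⟩⟩
      intro h0
      rw [h0, mul_zero, zero_sub, na_neg] at h4
      exact absurd (h4.trans_le hd') (lt_irrefl _)
    · by_cases hp1 : p ∈ Sum.inl '' S1
      · obtain ⟨v, hv, rfl⟩ := id hp1
        obtain ⟨w, hw, J, δ, hδ, h1⟩ := ht3 (fa v) _ hx2u hx2N (hx2P v hv) (εc (Sum.inl v))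
          (hεc _)
        refine ⟨w, δ, J, hδ, fun _ => ⟨⟨Unit, inferInstance, _, hCn v hv.2.2, hw⟩,
          fun j hj w1 hw1 hT hn => ⟨h1 j hj w1 hw1 hT hn, fun h => absurd h hp2⟩⟩⟩
      · exact ⟨fun _ => 0, 1, 0, one_pos, fun h => absurd h (by
          rw [hP, Set.mem_union, not_or]
          exact ⟨hp2, hp1⟩)⟩
  choose w δ J hδ htar using htar
  obtain ⟨ε2, hε2, hε2'⟩ := exists_pos_le hPf hδ
  obtain ⟨J2, hJ2⟩ : ∃ J2 : ℕ, ∀ p ∈ P, J p ≤ J2 := by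
    obtain ⟨J2, hJ2⟩ := (hPf.image J).bddAbove
    exact ⟨J2, fun p hp => hJ2 ⟨p, hp, rfl⟩⟩
  obtain ⟨w1, hw1, hw1T, hw1P, hw1g⟩ := hReach ((x2 : Dˣ) : D) u hx2u hx2N hx23 hu hx2Tu P hPf w
    (fun p hp => (htar p hp).1) ε2 hε2 J2
  have hall : ∀ p ∈ P, (∃ h : D, ((x2 : Dˣ) : D) * w1 * h = h * w1 ∧
          na B (plAbv p) (star h * h - 1) < εc p) ∧
        (p ∈ P2 → ((x2 : Dˣ) : D) * w1 * H948.hr C (((x2 : Dˣ) : D) * w1) w1 (g0 * (dP C w0)⁻¹) =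
              H948.hr C (((x2 : Dˣ) : D) * w1) w1 (g0 * (dP C w0)⁻¹) * w1 ∧
            na B (plAbv p) (H948.hr C (((x2 : Dˣ) : D) * w1) w1 (g0 * (dP C w0)⁻¹) - g0) < δA ∧
            H948.hr C (((x2 : Dˣ) : D) * w1) w1 (g0 * (dP C w0)⁻¹) ≠ 0 ∧
            na B (plAbv p) (w1 - w0) < ε0 / 2) := by
    intro p hp
    obtain ⟨j, hj, hn⟩ := hw1P p hp
    exact (htar p hp).2 j ((hJ2 p hp).trans hj) w1 hw1 hw1T (hn.trans_le (hε2' p hp))
  have hw10 : w1 ≠ 0 := left_ne_zero_of_mul_eq_one hw1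
  have hw1K : w1 ∉ Set.range (algebraMap K D) := H95.c_not_mem C hx23 hw10 hw1T
  obtain ⟨g1, g2, g3⟩ := hsc.same hx2u hx2N hw1 hw1T
  obtain ⟨g', hg'0, hg'x⟩ := H95.exists_inter C hw1K g1 g2 g3
  have hxw1 : (((x2 : Dˣ) : D) * w1) * star (((x2 : Dˣ) : D) * w1) = 1 := by
    rw [star_mul, mul_assoc, ← mul_assoc w1, hw1, one_mul, hx2u]
  -- the global class
  obtain ⟨u', hu', hxu'⟩ := hclass w1 (((x2 : Dˣ) : D) * w1) hw1 hxw1 hw1K ⟨g', hg'0, hg'x⟩ (by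
      intro v hv
      by_cases hvP : (Sum.inl v : Pl k) ∈ P
      · obtain ⟨⟨h, h1, h2⟩, -⟩ := hall _ hvP
        exact Or.inr ⟨h, h1, h2⟩
      · refine Or.inl ?_
        rw [hP, Set.mem_union, not_or] at hvP
        have hvS : v ∉ S0 := by
          intro h
          exact hvP.1 (Or.inl ⟨v, ⟨h, Or.inl hv⟩, rfl⟩)
        have hv1 : v ∉ S1 := fun h => hvP.2 ⟨v, h, rfl⟩
        have hgd : H182.Gd B (plAbv (Sum.inl v)) := by
          by_contra hcon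
          exact hvS (hBadS hcon)
        have hvq : v ≠ q := by
          rintro rfl
          exact hv hqd
        have hgu : GoodInt B v u (((x1 : Dˣ) : D) * u) := by
          by_contra hcon
          exact hv1 ⟨hcon, hvS, hv⟩
        refine ⟨h2S v hvS, hdS v hvS, hgd, hw1g v ?_ hv ((hx2g v hvS hv1 hvq).1 hgu)⟩
        rw [hP, Set.mem_union, not_or]
        exact hvP) (by
      intro φ hφ
      obtain ⟨⟨h, h1, h2⟩, -⟩ := hall (Sum.inr φ) (Or.inl (Or.inr ⟨φ, hφ, rfl⟩))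
      exact ⟨h, h1, h2⟩)
  -- adjustment at `Tdiv`
  obtain ⟨u'', hu'', hxu'', hun⟩ : ∃ u'' : D, u'' * star u'' = 1 ∧
      ((x2 : Dˣ) : D) * w1 * u'' = u'' * w1 ∧
        ∀ v ∈ Td, na B (plAbv (Sum.inl v)) (u'' - g0) < ε0 / 2 := by
    by_cases hne : Td.Nonempty
    · obtain ⟨v1, hv1⟩ := hne
      have hTP : ∀ v ∈ Td, (Sum.inl v : Pl k) ∈ P2 := fun v hv =>
        Or.inl ⟨v, ⟨hTdS hv, Or.inr hv⟩, rfl⟩
      have h1 := (hall _ (Or.inl (hTP v1 hv1))).2 (hTP v1 hv1)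
      exact hAdj w1 (((x2 : Dˣ) : D) * w1) u'
        (H948.hr C (((x2 : Dˣ) : D) * w1) w1 (g0 * (dP C w0)⁻¹)) hw1 hxw1 hw1K hu' hxu' h1.2.2.1
        h1.1 (fun v hv => ((hall _ (Or.inl (hTP v hv))).2 (hTP v hv)).2.1)
    · exact ⟨u', hu', hxu', fun v hv => absurd ⟨v, hv⟩ hne⟩
  have hu''0 : u'' ≠ 0 := left_ne_zero_of_mul_eq_one hu''
  have hmem := hstar (Units.mk0 u'' hu''0) (Units.mk0 w1 hw10) hu'' hw1 (by
      intro p hp
      obtain ⟨v, rfl, -⟩ := id hp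
      have h1 := hun v hp
      have h2 := (hnear v hp).1
      have h3 : na B (plAbv (Sum.inl v)) (g0 - 1) < ε0 / 2 := h2.trans_le (min_le_right _ _)
      have e : u'' - 1 = (u'' - g0) + (g0 - 1) := by abel
      change na B (plAbv (Sum.inl v)) (u'' - 1) < ε0
      rw [e]
      refine (na_add_le B _ _ _).trans_lt ?_
      linarith) (by
      intro p hp
      obtain ⟨v, rfl, -⟩ := id hp
      have hvP : (Sum.inl v : Pl k) ∈ P2 := Or.inl ⟨v, ⟨hTdS hp, Or.inr hp⟩, rfl⟩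
      have h1 := ((hall _ (Or.inl hvP)).2 hvP).2.2.2
      have h2 := (hnear v hp).2.1
      have h3 : na B (plAbv (Sum.inl v)) (w0 - 1) < ε0 / 2 := h2.trans_le (min_le_right _ _)
      have e : w1 - 1 = (w1 - w0) + (w0 - 1) := by abel
      change na B (plAbv (Sum.inl v)) (w1 - 1) < ε0
      rw [e]
      refine (na_add_le B _ _ _).trans_lt ?_
      linarith)
  have hx2e : (⁅Units.mk0 u'' hu''0, Units.mk0 w1 hw10⁆ : Dˣ) = (x2 : Dˣ) := by
    apply Units.ext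
    rw [commutatorElement_def, Units.val_mul, Units.val_mul, Units.val_mul, Units.val_mk0,
      Units.val_mk0, Units.val_inv_eq_inv_val, Units.val_inv_eq_inv_val, Units.val_mk0,
      Units.val_mk0, ← hxu'', mul_assoc (((x2 : Dˣ) : D) * w1), mul_inv_cancel₀ hu''0, mul_one,
      mul_assoc, mul_inv_cancel₀ hw10, mul_one]
  rw [hx2e] at hmem
  obtain ⟨x2', hx2', hx2''⟩ := hmem
  have hx2mem : x2 ∈ Q := by
    have h1 : x2' = x2 := Subtype.ext hx2''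
    rwa [h1] at hx2'
  apply hyQ
  have h1 : x1 ∈ Q := by
    have h2 := Q.mul_mem hx2mem (Q.inv_mem hx2Q)
    have e : x2 * (x1⁻¹ * x2)⁻¹ = x1 := by group
    rwa [e] at h2
  have h2 := Q.mul_mem h1 (Q.inv_mem hx1Q)
  have e : x1 * (y⁻¹ * x1)⁻¹ = y := by group
  rwa [e] at h2

end final

end Vale.Agent.P011.H3
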