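import Vale.Agent.P011.H3.Pol
import Vale.Agent.P011.H748.N4Curve
import Vale.Agent.P011.H756.N0

/-!
Calculus of bounded sequences modulo null sequences in the division algebra.
-/

open Module Filter Topology

set_option linter.unusedSectionVars false
set_option linter.unusedVariables false

namespace Vale.Agent.P011.H3

open Vale.Agent.P011.H182 Vale.Agent.P011.H775 Vale.Agent.P011.H948

section basic

variable {k K D : Type} [Field k] [Field K] [DivisionRing D] [Algebra k K]
  [Algebra k D] [Algebra K D] [IsScalarTower k K D] {N : ℕ}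
  (B : Basis (Fin N) k D) (a : AbsoluteValue k ℝ) (ω : Filter ℕ)

/-- Bounded sequences. -/
def Bd (f : ℕ → D) : Prop := ∃ R : ℝ, ∀ᶠ j in ω, na B a (f j) ≤ R

/-- Null sequences. -/
def Nl (f : ℕ → D) : Prop := Tendsto (fun j => na B a (f j)) ω (𝓝 0)

/-- Equality up to a null sequence. -/
def Eqv (f g : ℕ → D) : Prop := Nl B a ω fun j => f j - g j

/-- Bounded sequences of scalars. -/
def BdK (f : ℕ → K) : Prop := Bd B a ω fun j => algebraMap K D (f j)

/-- Equality of sequences of scalars up to a null sequence. -/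
def EqK (f g : ℕ → K) : Prop := Eqv B a ω (fun j => algebraMap K D (f j))
  fun j => algebraMap K D (g j)

variable {B a ω}

theorem Nl.zero : Nl B a ω fun _ => (0 : D) := by
  rw [Nl]
  simp only [na_zero]
  exact tendsto_const_nhds

theorem Nl.add {f g : ℕ → D} (hf : Nl B a ω f) (hg : Nl B a ω g) :
    Nl B a ω fun j => f j + g j := by
  have h1 : Tendsto (fun j => na B a (f j) + na B a (g j)) ω (𝓝 0) := by
    simpa using Tendsto.add hf hg
  exact squeeze_zero (fun j => na_nonneg B a _) (fun j => na_add_le B a _ _) h1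

theorem Nl.neg {f : ℕ → D} (hf : Nl B a ω f) : Nl B a ω fun j => -f j := by
  rw [Nl]
  simp only [na_neg]
  exact hf

theorem Nl.sub {f g : ℕ → D} (hf : Nl B a ω f) (hg : Nl B a ω g) :
    Nl B a ω fun j => f j - g j := by
  simp only [sub_eq_add_neg]
  exact hf.add hg.neg

theorem Nl.lin {f : ℕ → D} (hf : Nl B a ω f) (L : D →ₗ[k] D) : Nl B a ω fun j => L (f j) := by
  obtain ⟨C, hC, h⟩ := na_linear B a L
  have h1 : Tendsto (fun j => C * na B a (f j)) ω (𝓝 0) := by
    simpa using Tendsto.const_mul C hf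
  exact squeeze_zero (fun j => na_nonneg B a _) (fun j => h _) h1

theorem Nl.bd {f : ℕ → D} (hf : Nl B a ω f) : Bd B a ω f :=
  ⟨1, (hf.eventually (gt_mem_nhds one_pos)).mono fun j h => h.le⟩

theorem Bd.const (c : D) : Bd B a ω fun _ => c := ⟨na B a c, Eventually.of_forall fun _ => le_rfl⟩

theorem Bd.add {f g : ℕ → D} (hf : Bd B a ω f) (hg : Bd B a ω g) :
    Bd B a ω fun j => f j + g j := by
  obtain ⟨R, hR⟩ := hf
  obtain ⟨R', hR'⟩ := hg
  refine ⟨R + R', ?_⟩
  filter_upwards [hR, hR'] with j h h'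
  exact (na_add_le B a _ _).trans (add_le_add h h')

theorem Bd.neg {f : ℕ → D} (hf : Bd B a ω f) : Bd B a ω fun j => -f j := by
  obtain ⟨R, hR⟩ := hf
  refine ⟨R, ?_⟩
  filter_upwards [hR] with j h
  rwa [na_neg]

theorem Bd.sub {f g : ℕ → D} (hf : Bd B a ω f) (hg : Bd B a ω g) :
    Bd B a ω fun j => f j - g j := by
  simp only [sub_eq_add_neg]
  exact hf.add hg.neg

theorem Bd.lin {f : ℕ → D} (hf : Bd B a ω f) (L : D →ₗ[k] D) : Bd B a ω fun j => L (f j) := by
  obtain ⟨C, hC, h⟩ := na_linear B a L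
  obtain ⟨R, hR⟩ := hf
  refine ⟨C * R, ?_⟩
  filter_upwards [hR] with j h'
  exact (h _).trans (mul_le_mul_of_nonneg_left h' hC.le)

theorem Bd.mul {f g : ℕ → D} (hf : Bd B a ω f) (hg : Bd B a ω g) :
    Bd B a ω fun j => f j * g j := by
  obtain ⟨C, hC, h⟩ := na_mul B a
  obtain ⟨R, hR⟩ := hf
  obtain ⟨R', hR'⟩ := hg
  refine ⟨C * |R| * |R'|, ?_⟩
  filter_upwards [hR, hR'] with j h1 h2
  have := na_nonneg B a (f j)
  have := na_nonneg B a (g j)
  refine (h _ _).trans ?_
  have h3 : na B a (f j) ≤ |R| := h1.trans (le_abs_self _)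
  have h4 : na B a (g j) ≤ |R'| := h2.trans (le_abs_self _)
  gcongr

theorem Nl.mul {f g : ℕ → D} (hf : Nl B a ω f) (hg : Bd B a ω g) :
    Nl B a ω fun j => f j * g j := by
  obtain ⟨C, hC, h⟩ := na_mul B a
  obtain ⟨R, hR⟩ := hg
  have h1 : Tendsto (fun j => C * na B a (f j) * |R|) ω (𝓝 0) := by
    simpa using (Tendsto.const_mul C hf).mul_const |R|
  refine squeeze_zero' (Eventually.of_forall fun j => na_nonneg B a _) ?_ h1
  filter_upwards [hR] with j h2
  refine (h _ _).trans ?_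
  have := na_nonneg B a (f j)
  have h4 : na B a (g j) ≤ |R| := h2.trans (le_abs_self _)
  gcongr

theorem Nl.mul' {f g : ℕ → D} (hf : Bd B a ω f) (hg : Nl B a ω g) :
    Nl B a ω fun j => f j * g j := by
  obtain ⟨C, hC, h⟩ := na_mul B a
  obtain ⟨R, hR⟩ := hf
  have h1 : Tendsto (fun j => C * |R| * na B a (g j)) ω (𝓝 0) := by
    simpa using Tendsto.const_mul (C * |R|) hg
  refine squeeze_zero' (Eventually.of_forall fun j => na_nonneg B a _) ?_ h1
  filter_upwards [hR] with j h2
  refine (h _ _).trans ?_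
  have := na_nonneg B a (g j)
  have h4 : na B a (f j) ≤ |R| := h2.trans (le_abs_self _)
  gcongr

theorem Eqv.refl (f : ℕ → D) : Eqv B a ω f f := by
  rw [Eqv]
  simp only [sub_self]
  exact Nl.zero

theorem Eqv.symm {f g : ℕ → D} (h : Eqv B a ω f g) : Eqv B a ω g f := by
  have := Nl.neg h
  rw [Eqv]
  simpa only [neg_sub] using this

theorem Eqv.trans {f g h : ℕ → D} (h1 : Eqv B a ω f g) (h2 : Eqv B a ω g h) : Eqv B a ω f h := by
  have := Nl.add h1 h2
  rw [Eqv]
  simpa only [sub_add_sub_cancel] using this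

theorem Eqv.add {f g f' g' : ℕ → D} (h1 : Eqv B a ω f f') (h2 : Eqv B a ω g g') :
    Eqv B a ω (fun j => f j + g j) fun j => f' j + g' j := by
  have := Nl.add h1 h2
  have e : (fun j => f j + g j - (f' j + g' j)) = fun j => f j - f' j + (g j - g' j) := by
    funext j
    abel
  rw [Eqv, e]
  exact this

theorem Eqv.neg {f f' : ℕ → D} (h1 : Eqv B a ω f f') :
    Eqv B a ω (fun j => -f j) fun j => -f' j := by
  have := Nl.neg h1
  have e : (fun j => -f j - -f' j) = fun j => -(f j - f' j) := by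
    funext j
    abel
  rw [Eqv, e]
  exact this

theorem Eqv.sub {f g f' g' : ℕ → D} (h1 : Eqv B a ω f f') (h2 : Eqv B a ω g g') :
    Eqv B a ω (fun j => f j - g j) fun j => f' j - g' j := by
  simp only [sub_eq_add_neg]
  exact h1.add h2.neg

theorem Eqv.lin {f f' : ℕ → D} (h1 : Eqv B a ω f f') (L : D →ₗ[k] D) :
    Eqv B a ω (fun j => L (f j)) fun j => L (f' j) := by
  have := Nl.lin h1 L
  rw [Eqv]
  simpa only [map_sub] using this

theorem Bd.ksmul {f : ℕ → D} (h : Bd B a ω f) (c : k) : Bd B a ω fun j => c • f j := by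
  have h1 := h.lin (LinearMap.mulLeft k (algebraMap k D c))
  simp only [LinearMap.mulLeft_apply] at h1
  have e : (fun j => c • f j) = fun j => algebraMap k D c * f j :=
    funext fun j => Algebra.smul_def _ _
  rw [e]
  exact h1

theorem Eqv.ksmul {f g : ℕ → D} (h : Eqv B a ω f g) (c : k) :
    Eqv B a ω (fun j => c • f j) fun j => c • g j := by
  have h1 := h.lin (LinearMap.mulLeft k (algebraMap k D c))
  simp only [LinearMap.mulLeft_apply] at h1
  have e : ∀ f : ℕ → D, (fun j => c • f j) = fun j => algebraMap k D c * f j :=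
    fun f => funext fun j => Algebra.smul_def _ _
  rw [e f, e g]
  exact h1

theorem Eqv.bd {f f' : ℕ → D} (h1 : Eqv B a ω f f') (h : Bd B a ω f') : Bd B a ω f := by
  have := (Nl.bd h1).add h
  simpa only [sub_add_cancel] using this

theorem Eqv.mul {f g f' g' : ℕ → D} (h1 : Eqv B a ω f f') (h2 : Eqv B a ω g g')
    (hf : Bd B a ω f') (hg : Bd B a ω g') :
    Eqv B a ω (fun j => f j * g j) fun j => f' j * g' j := by
  have h3 := Nl.add (Nl.mul h1 (h2.bd hg)) (Nl.mul' hf h2)
  have e : (fun j => f j * g j - f' j * g' j) =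
      fun j => (f j - f' j) * g j + f' j * (g j - g' j) := by
    funext j
    rw [sub_mul, mul_sub]
    abel
  rw [Eqv, e]
  exact h3

theorem Eqv.of_eq {f g : ℕ → D} (h : ∀ j, f j = g j) : Eqv B a ω f g := by
  have : f = g := funext h
  rw [this]
  exact Eqv.refl _

/-- Inverses of sequences near `1`. -/
theorem Eqv.inv_one {f : ℕ → D} (h : Eqv B a ω f fun _ => 1) :
    (∀ᶠ j in ω, f j ≠ 0) ∧ Bd B a ω (fun j => (f j)⁻¹) ∧ Eqv B a ω (fun j => (f j)⁻¹) fun _ => 1 := by
  obtain ⟨C, hC, hm⟩ := na_mul B a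
  have h1 : ∀ᶠ j in ω, na B a (f j - 1) < 1 / (2 * C) :=
    h.eventually (gt_mem_nhds (by positivity))
  have h2 : ∀ᶠ j in ω, f j ≠ 0 := by
    filter_upwards [h1] with j hj h0
    rw [h0, zero_sub, na_neg] at hj
    have h3 := hm 1 1
    rw [mul_one] at h3
    have h4 : 0 < na B a (1 : D) := na_pos B a one_ne_zero
    have h5 : C * na B a (1 : D) * na B a (1 : D) < na B a (1 : D) := by
      have h6 : C * na B a (1 : D) < 1 := by
        rw [lt_div_iff₀ (by positivity)] at hj
        nlinarith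
      nlinarith
    linarith
  have h3 : Bd B a ω fun j => (f j)⁻¹ := by
    refine ⟨2 * na B a (1 : D), ?_⟩
    filter_upwards [h1, h2] with j hj h0
    have e : (f j)⁻¹ = 1 - (f j - 1) * (f j)⁻¹ := by
      rw [sub_mul, mul_inv_cancel₀ h0, one_mul]
      abel
    have h4 : na B a (f j)⁻¹ ≤ na B a (1 : D) + na B a ((f j - 1) * (f j)⁻¹) := by
      conv_lhs => rw [e]
      exact na_sub_le B a _ _
    have h5 := hm (f j - 1) (f j)⁻¹
    have h6 := na_nonneg B a (f j)⁻¹
    have h7 : C * na B a (f j - 1) ≤ 1 / 2 := by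
      rw [lt_div_iff₀ (by positivity)] at hj
      nlinarith
    have h8 : C * na B a (f j - 1) * na B a (f j)⁻¹ ≤ 1 / 2 * na B a (f j)⁻¹ :=
      mul_le_mul_of_nonneg_right h7 h6
    linarith
  refine ⟨h2, h3, ?_⟩
  have h4 := Nl.neg (Nl.mul h h3)
  refine Tendsto.congr' ?_ h4
  filter_upwards [h2] with j h0
  congr 1
  rw [sub_mul, mul_inv_cancel₀ h0, one_mul, neg_sub]

/-- Inverses from one sided approximate inverses. -/
theorem Eqv.inv_of_mul {f g : ℕ → D} (h : Eqv B a ω (fun j => f j * g j) fun _ => 1)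
    (hg : Bd B a ω g) :
    (∀ᶠ j in ω, f j ≠ 0) ∧ Bd B a ω (fun j => (f j)⁻¹) ∧ Eqv B a ω (fun j => (f j)⁻¹) g := by
  obtain ⟨h1, h2, h3⟩ := h.inv_one
  have h4 : ∀ᶠ j in ω, f j ≠ 0 := by
    filter_upwards [h1] with j hj h0
    rw [h0, zero_mul] at hj
    exact hj rfl
  have e : ∀ᶠ j in ω, (f j)⁻¹ = g j * (f j * g j)⁻¹ := by
    filter_upwards [h1] with j hj
    have hg0 : g j ≠ 0 := right_ne_zero_of_mul hj
    rw [mul_inv_rev, ← mul_assoc, mul_inv_cancel₀ hg0, one_mul]
  have h5 : Eqv B a ω (fun j => g j * (f j * g j)⁻¹) fun j => g j * 1 :=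
    (Eqv.refl g).mul h3 hg (Bd.const 1)
  simp only [mul_one] at h5
  have h6 : Eqv B a ω (fun j => (f j)⁻¹) g := by
    refine Tendsto.congr' ?_ h5
    filter_upwards [e] with j hj
    rw [hj]
  exact ⟨h4, h6.bd hg, h6⟩

theorem Eqv.congr' {f f' g : ℕ → D} (h : Eqv B a ω f g) (e : ∀ᶠ j in ω, f j = f' j) :
    Eqv B a ω f' g := by
  refine Tendsto.congr' ?_ h
  filter_upwards [e] with j hj
  rw [hj]

theorem Bd.congr' {f f' : ℕ → D} (h : Bd B a ω f) (e : ∀ᶠ j in ω, f j = f' j) :
    Bd B a ω f' := by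
  obtain ⟨R, hR⟩ := h
  refine ⟨R, ?_⟩
  filter_upwards [hR, e] with j h1 h2
  rwa [← h2]

/-! ### Scalars -/

theorem EqK.refl (f : ℕ → K) : EqK (D := D) B a ω f f := Eqv.refl _

theorem EqK.symm {f g : ℕ → K} (h : EqK (D := D) B a ω f g) : EqK (D := D) B a ω g f :=
  Eqv.symm h

theorem EqK.trans {f g h : ℕ → K} (h1 : EqK (D := D) B a ω f g) (h2 : EqK (D := D) B a ω g h) :
    EqK (D := D) B a ω f h := Eqv.trans h1 h2

theorem EqK.bd {f g : ℕ → K} (h : EqK (D := D) B a ω f g) (hg : BdK (D := D) B a ω g) :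
    BdK (D := D) B a ω f := Eqv.bd h hg

theorem EqK.add {f g f' g' : ℕ → K} (h1 : EqK (D := D) B a ω f f')
    (h2 : EqK (D := D) B a ω g g') :
    EqK (D := D) B a ω (fun j => f j + g j) fun j => f' j + g' j := by
  rw [EqK]
  simp only [map_add]
  exact Eqv.add h1 h2

theorem EqK.sub {f g f' g' : ℕ → K} (h1 : EqK (D := D) B a ω f f')
    (h2 : EqK (D := D) B a ω g g') :
    EqK (D := D) B a ω (fun j => f j - g j) fun j => f' j - g' j := by
  rw [EqK]
  simp only [map_sub]
  exact Eqv.sub h1 h2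

theorem EqK.mul {f g f' g' : ℕ → K} (h1 : EqK (D := D) B a ω f f')
    (h2 : EqK (D := D) B a ω g g') (hf : BdK (D := D) B a ω f') (hg : BdK (D := D) B a ω g') :
    EqK (D := D) B a ω (fun j => f j * g j) fun j => f' j * g' j := by
  rw [EqK]
  simp only [map_mul]
  exact Eqv.mul h1 h2 hf hg

theorem BdK.const (c : K) : BdK (D := D) B a ω fun _ => c := Bd.const _

theorem BdK.add {f g : ℕ → K} (hf : BdK (D := D) B a ω f) (hg : BdK (D := D) B a ω g) :
    BdK (D := D) B a ω fun j => f j + g j := by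
  rw [BdK]
  simp only [map_add]
  exact Bd.add hf hg

theorem BdK.sub {f g : ℕ → K} (hf : BdK (D := D) B a ω f) (hg : BdK (D := D) B a ω g) :
    BdK (D := D) B a ω fun j => f j - g j := by
  rw [BdK]
  simp only [map_sub]
  exact Bd.sub hf hg

theorem BdK.mul {f g : ℕ → K} (hf : BdK (D := D) B a ω f) (hg : BdK (D := D) B a ω g) :
    BdK (D := D) B a ω fun j => f j * g j := by
  rw [BdK]
  simp only [map_mul]
  exact Bd.mul hf hg

theorem Bd.smul {c : ℕ → K} {f : ℕ → D} (hc : BdK (D := D) B a ω c) (hf : Bd B a ω f) :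
    Bd B a ω fun j => c j • f j := by
  simp only [Algebra.smul_def]
  exact Bd.mul hc hf

theorem Eqv.smul {c c' : ℕ → K} {f f' : ℕ → D} (hc : EqK (D := D) B a ω c c')
    (hf : Eqv B a ω f f') (bc : BdK (D := D) B a ω c') (bf : Bd B a ω f') :
    Eqv B a ω (fun j => c j • f j) fun j => c' j • f' j := by
  simp only [Algebra.smul_def]
  exact Eqv.mul hc hf bc bf

theorem EqK.inv_of_mul {f g : ℕ → K} (h : EqK (D := D) B a ω (fun j => f j * g j) fun _ => 1)
    (hg : BdK (D := D) B a ω g) :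
    (∀ᶠ j in ω, f j ≠ 0) ∧ BdK (D := D) B a ω (fun j => (f j)⁻¹) ∧
      EqK (D := D) B a ω (fun j => (f j)⁻¹) g := by
  have h' : Eqv B a ω (fun j => algebraMap K D (f j) * algebraMap K D (g j)) fun _ => 1 := by
    have h1 := h
    rw [EqK] at h1
    simpa only [map_mul, map_one] using h1
  obtain ⟨h1, h2, h3⟩ := Eqv.inv_of_mul h' hg
  refine ⟨?_, ?_, ?_⟩
  · filter_upwards [h1] with j hj h0
    rw [h0, map_zero] at hj
    exact hj rfl
  · rw [BdK]
    simpa only [map_inv₀] using h2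
  · rw [EqK]
    simpa only [map_inv₀] using h3

end basic

section cub

variable {k K D : Type} [Field k] [Field K] [StarRing K] [DivisionRing D] [StarRing D]
  [Algebra k K] [Algebra k D] [Algebra K D] [IsScalarTower k K D] {C : Cub K D} {N : ℕ}
  {B : Basis (Fin N) k D} {a : AbsoluteValue k ℝ} {ω : Filter ℕ}

/-- `x ↦ T x` as an endomorphism of `D`. -/
def Tl (k : Type) [Field k] [Algebra k K] [Algebra k D] [IsScalarTower k K D] (C : Cub K D) :
    D →ₗ[k] D where
  toFun x := algebraMap K D (C.T x)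
  map_add' x y := by rw [map_add, map_add]
  map_smul' c x := by
    rw [RingHom.id_apply, ← algebraMap_smul K c x, map_smul, smul_eq_mul, map_mul,
      ← IsScalarTower.algebraMap_apply, Algebra.smul_def]

theorem Bd.T {f : ℕ → D} (hf : Bd B a ω f) : BdK (D := D) B a ω fun j => C.T (f j) :=
  hf.lin (Tl k C)

theorem Eqv.T {f g : ℕ → D} (hf : Eqv B a ω f g) :
    EqK (D := D) B a ω (fun j => C.T (f j)) fun j => C.T (g j) :=
  hf.lin (Tl k C)

theorem adj_half (h2 : (2 : k) ≠ 0) (x : D) : C.adj x = x * x - C.T x • x +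
    (2⁻¹ : k) • ((C.T x * C.T x - C.T (x * x)) • (1 : D)) := by
  have h1 : 2 * C.S x = C.T x * C.T x - C.T (x * x) := by
    have h1 := congrArg C.T (C.adj_eq x)
    rw [map_add, map_sub, map_smul, map_smul, C.T_one, smul_eq_mul, smul_eq_mul] at h1
    have h2 : C.T (C.adj x) = C.S x := rfl
    rw [h2] at h1
    linear_combination -h1
  have h3 : (2 : K) ≠ 0 := by
    have := (map_ne_zero (algebraMap k K)).2 h2
    rwa [map_ofNat] at this
  rw [← h1, C.adj_eq, ← algebraMap_smul K (2⁻¹ : k), smul_smul, map_inv₀, map_ofNat,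
    inv_mul_cancel_left₀ h3]

theorem Bd.adj (h2 : (2 : k) ≠ 0) {f : ℕ → D} (hf : Bd B a ω f) :
    Bd B a ω fun j => C.adj (f j) := by
  have e : (fun j => C.adj (f j)) = fun j => f j * f j - C.T (f j) • f j +
      (2⁻¹ : k) • ((C.T (f j) * C.T (f j) - C.T (f j * f j)) • (1 : D)) :=
    funext fun j => adj_half h2 _
  rw [e]
  have h1 := (hf.mul hf).T (C := C)
  have h3 := ((hf.T (C := C)).mul (hf.T (C := C))).sub h1
  exact ((hf.mul hf).sub (Bd.smul (hf.T (C := C)) hf)).add
    ((Bd.smul h3 (Bd.const 1)).ksmul (2⁻¹ : k))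

theorem Eqv.adj (h2 : (2 : k) ≠ 0) {f g : ℕ → D} (h : Eqv B a ω f g) (hg : Bd B a ω g) :
    Eqv B a ω (fun j => C.adj (f j)) fun j => C.adj (g j) := by
  have e : ∀ f : ℕ → D, (fun j => C.adj (f j)) = fun j => f j * f j - C.T (f j) • f j +
      (2⁻¹ : k) • ((C.T (f j) * C.T (f j) - C.T (f j * f j)) • (1 : D)) :=
    fun f => funext fun j => adj_half h2 _
  rw [e f, e g]
  have h1 := (h.mul h hg hg).T (C := C)
  have bT := hg.T (C := C)
  have h3 := ((h.T (C := C)).mul (h.T (C := C)) bT bT).sub h1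
  have b3 := (bT.mul bT).sub ((hg.mul hg).T (C := C))
  exact ((h.mul h hg hg).sub (Eqv.smul (h.T (C := C)) h bT hg)).add
    ((Eqv.smul h3 (Eqv.refl fun _ => (1 : D)) b3 (Bd.const 1)).ksmul (2⁻¹ : k))

variable (h : SCub C) (hk : ∀ c : k, star (algebraMap k K c) = algebraMap k K c)

include h hk

/-- The involution as a linear map over `k`. -/
def stl (h : SCub C) (hk : ∀ c : k, star (algebraMap k K c) = algebraMap k K c) : D →ₗ[k] D where
  toFun := star
  map_add' := star_add
  map_smul' c x := by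
    rw [RingHom.id_apply, ← algebraMap_smul K c x, h.smul, hk, algebraMap_smul]

theorem Bd.star {f : ℕ → D} (hf : Bd B a ω f) : Bd B a ω fun j => star (f j) :=
  hf.lin (stl h hk)

theorem Eqv.star {f g : ℕ → D} (hf : Eqv B a ω f g) :
    Eqv B a ω (fun j => star (f j)) fun j => star (g j) :=
  hf.lin (stl h hk)

omit hk in
theorem star_alg' (c : K) : star (algebraMap K D c) = algebraMap K D (star c) := by
  rw [Algebra.algebraMap_eq_smul_one, h.smul, star_one, ← Algebra.algebraMap_eq_smul_one]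

theorem BdK.star {f : ℕ → K} (hf : BdK (D := D) B a ω f) :
    BdK (D := D) B a ω fun j => star (f j) := by
  have := Bd.star h hk hf
  rw [BdK]
  simpa only [star_alg' h] using this

theorem EqK.star {f g : ℕ → K} (hf : EqK (D := D) B a ω f g) :
    EqK (D := D) B a ω (fun j => star (f j)) fun j => star (g j) := by
  have := Eqv.star h hk hf
  rw [EqK]
  simpa only [star_alg' h] using this

end cub

end Vale.Agent.P011.H3
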