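import Vale.Agent.P011.H3.Core
import Vale.Agent.P011.H416.LineCore
import Vale.Agent.P011.H73.GrpLaw

/-!
**The line theorem over a number field, from the existence of the means.**
-/

open NumberField IsDedekindDomain Module Filter

set_option linter.unusedSectionVars false

namespace Vale.Agent.P011.H3

open Vale.Agent.P011.Arith Vale.Agent.P011.Even Vale.Agent.P011.Two Vale.Agent.P011.One
  Vale.Agent.P011.H182 Vale.Agent.P011.H976 Vale.Agent.P011.H674.Pair

variable {k K D : Type} [Field k] [NumberField k] [Field K] [NumberField K] [StarRing K]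
  [DivisionRing D] [StarRing D] [Algebra k K] [Algebra k D] [Algebra K D] [IsScalarTower k K D]
  {d : kˣ} {s : K} {Ω : Type} [Field Ω] [Algebra K Ω] {n M : ℕ}

/-- The unitary group of `D` with its chart. -/
theorem chart_UD (hS : Setting k K D d s) : Chart (UD D) (algebraMap K D s) where
  mem_iff := fun _ => mem_UD
  comm := fun x => H565.algS_comm x
  star_del := H565.star_algS hS
  two := by
    have h := (map_ne_zero (algebraMap k D)).2 (two_ne_zero (α := k))
    rwa [map_ofNat] at h
  ne := by
    intro h0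
    apply H565.star_algS_ne hS
    rw [h0, star_zero]

/-- The existence of the means at the place `q`, for every target. -/
def NEAt (s : K) (f : D →ₐ[K] Matrix (Fin n) (Fin n) Ω) (B : Basis (Fin M) k D)
    {q : HeightOneSpectrum (𝓞 k)} (f0 : D →+* Matrix (Fin n) (Fin n) (q.adicCompletion k)) :
    Prop :=
  ∀ (Q : Type) (_ : Group Q) (c : UD D →* Q) (R : Subgroup Q), Target0 (lvF f B {q}) c R →
    ∀ (hC : Chart (UD D) (algebraMap K D s)) (E : Subring D) (hE : CStar (algebraMap K D s) E),
      (∀ x : k, algebraMap k D x ∈ E) → ∀ σ ∈ E, star σ = σ →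
        f0 σ ∈ H210.SR (Fin n) (q.adicCompletion k) → ∀ t : UD D, ((t : Dˣ) : D) ∈ E →
          H966.NE c R {p | ∃ π ∈ hC.PE hE, p = hC.L t * π ∨ p = (hC.L t)⁻¹ * π}
            (fun b : k => hC.T (algebraMap k D b))

theorem coe_cayU (hS : Setting k K D d s) {τ : D} (hτ : star τ = τ) {u : UD D}
    (hu : ((u : Dˣ) : D) * (τ - algebraMap K D s) = τ + algebraMap K D s) :
    u = (chart_UD hS).cayU hτ := by
  apply Subtype.ext
  apply Units.ext
  apply mul_right_cancel₀ ((chart_UD hS).sub_ne hτ)
  rw [hu]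
  change _ = (τ + algebraMap K D s) * (τ - algebraMap K D s)⁻¹ * _
  rw [mul_assoc, inv_mul_cancel₀ ((chart_UD hS).sub_ne hτ), mul_one]

/-- **The line theorem**, from the existence of the means. -/
theorem lineThm_of_ne (hS : Setting k K D d s)
    (f : D →ₐ[K] Matrix (Fin n) (Fin n) Ω) (B : Basis (Fin M) k D)
    {q : HeightOneSpectrum (𝓞 k)} {f0 : D →+* Matrix (Fin n) (Fin n) (q.adicCompletion k)}
    (hNE : NEAt s f B f0) : LineThm s f B f0 := by
  intro E iE c R hT hc σ₁ hσ₁ hSR τ hτ b u v hu hv hcu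
  have := hS.fin
  have hfk : FiniteDimensional k K := Module.finite_of_finrank_pos (by rw [hS.rank]; norm_num)
  have hfD : FiniteDimensional k D := FiniteDimensional.trans k K D
  have := hT.fin
  let _ : Fintype E := Fintype.ofFinite E
  have hst : ∀ a : k, star (algebraMap k D a) = algebraMap k D a := by
    intro a
    rw [IsScalarTower.algebraMap_apply k K D, star_algK hS, (hS.fix _).2 ⟨a, rfl⟩]
  have hd : algebraMap K D s ^ 2 = algebraMap k D (d : k) := by
    rw [← map_pow, hS.sq, ← IsScalarTower.algebraMap_apply]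
  have hτs : star τ = τ := H416.star_adjoin hst hσ₁ hτ
  have h1 := H416.line_core (chart_UD hS) hT.normal
    (fun r s D _ h => H73.Grp.pairLaw_iff hT.normal hT.min hT.cent r s D h) hst hd c
    (fun u hu => hc u fun g _ => Subtype.ext (Units.ext (hu ((g : Dˣ) : D))))
    (sp := fun x => f0 x ∈ H210.SR (Fin n) (q.adicCompletion k))
    (fun F hF hkF σ hσF hσs hsp t ht => hNE E iE c R hT (chart_UD hS) F hF hkF σ hσF hσs hsp t ht)
    hσ₁ hSR hτs hτ (by rw [← coe_cayU hS hτs hu, hcu]) b
  rw [← h1]
  congr 1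
  exact coe_cayU hS _ hv

/-- **The core, from the existence of the means.** -/
theorem coreAt_of_ne (hS : Setting k K D d s) (hn : 0 < n) (hdeg : finrank K D = n ^ 2)
    (f : D →ₐ[K] Matrix (Fin n) (Fin n) Ω) (B : Basis (Fin M) k D)
    {q : HeightOneSpectrum (𝓞 k)} {φ : K →+* q.adicCompletion k}
    {f0 : D →+* Matrix (Fin n) (Fin n) (q.adicCompletion k)} (h : SplAt K D n q φ f0)
    (hNE : NEAt s f B f0) : CoreAt f B q :=
  core_false hS hn hdeg f B h (lineThm_of_ne hS f B hNE)

end Vale.Agent.P011.H3
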