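import Vale.Agent.P011.H3.ReachNF
import Vale.Agent.P011.H14.Plug
import Vale.Agent.P011.H321.PartIF
import Vale.Agent.P011.H73.AdjA2
import Vale.Agent.P011.H518.PairNF

/-!
**The solvable step in degree three**, from the decomposition of the elements near one into good
elements.
-/

open Module NumberField IsDedekindDomain Filter Topology
open scoped commutatorElement

set_option linter.unusedSectionVars false
set_option linter.unusedVariables false

namespace Vale.Agent.P011.H3

open Vale.Agent.P011.Arith Vale.Agent.P011.Even Vale.Agent.P011.Two Vale.Agent.P011.One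
  Vale.Agent.P011.H182 Vale.Agent.P011.H775 Vale.Agent.P011.H948 Vale.Agent.P011.H929
  Vale.Agent.P011.H976

variable {k K D : Type} [Field k] [NumberField k] [Field K] [NumberField K] [StarRing K]
  [DivisionRing D] [StarRing D] [Algebra k K] [Algebra k D] [Algebra K D] [IsScalarTower k K D]
  {d : kˣ} {s : K} {M : ℕ} {Ω : Type} [Field Ω] [Algebra K Ω]

theorem solvAt_plug (hS : Setting k K D d s) (hdeg : finrank K D = 3 ^ 2)
    (f : D →ₐ[K] Matrix (Fin 3) (Fin 3) Ω) (B : Basis (Fin M) k D) (C : Cub K D)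
    (hSv : H518.Sv k f B) : SolvAt k f B := by
  have hfin := hS.fin
  have hcen := hS.cen
  have hTf : (Tdiv k K D).Finite := Vale.Agent.P011.Pow.tdiv_finite (by norm_num) hdeg
  have hTdf : {v : HeightOneSpectrum (𝓞 k) | (Sum.inl v : Pl k) ∈ Tdiv k K D}.Finite :=
    hTf.preimage (f := fun v : HeightOneSpectrum (𝓞 k) => (Sum.inl v : Pl k))
      Sum.inl_injective.injOn
  refine solvAt_of hS hdeg f B C hTf hSv (H518.pr_nf hS hdeg C f B hTf)
    (reach_nf hS hdeg C B) ?_ ?_ ?_ ?_ ?_ ?_ ?_ (H14.ht1_nf hS hdeg C B)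
    (H14.ht2_nf hS hdeg C B) (H14.ht3_nf hS hdeg C B)
  · intro P1 hP1 hne hTd x0 w0 hx0 hw0 hT0 hN1 hN3
    exact H321.PartIF.partI hS hdeg C B hP1 hne hTd hx0 hw0 hT0 hN1 hN3
  · intro g0 hg0 ε hε
    exact H73.AdjA.adjA hS hdeg B hTdf (fun v hv => H521.tdiv_split hS hv) hg0 hε
  · intro v
    by_cases hv : d ∈ LS (v.valuation k)
    · obtain ⟨b, hb⟩ := H521.comps_split hS B hv
      exact ⟨Bool, inferInstance, b, hb⟩
    · exact ⟨Unit, inferInstance, _, H521.comps_nonsplit hS B hv⟩
  · intro φ hφ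
    exact ⟨Unit, inferInstance, _, H521.comps_real hS B hφ⟩
  · intro v hv
    exact H521.comps_nonsplit hS B hv
  · intro F hF
    exact H521.exists_split_place d hF
  · intro v hv
    exact H521.tdiv_split hS hv

/-- **The solvable step in degree three.** -/
theorem solv_three_of (hSv : ∀ (k K D : Type) [Field k] [NumberField k] [Field K] [NumberField K]
    [StarRing K] [DivisionRing D] [StarRing D] [Algebra k K] [Algebra k D] [Algebra K D]
    [IsScalarTower k K D] (d : kˣ) (s : K), Setting k K D d s → finrank K D = 3 ^ 2 →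
    ∀ (C : Cub K D) (Ω : Type) [Field Ω] [Algebra K Ω] (f : D →ₐ[K] Matrix (Fin 3) (Fin 3) Ω)
      (M : ℕ) (B : Basis (Fin M) k D), H518.Sv k f B) : Solv 3 := by
  intro k K D _ _ _ _ _ _ _ _ _ _ _ d s hS hdeg Ω _ _ f M B
  have hfin := hS.fin
  have hcen := hS.cen
  obtain ⟨C⟩ := exists_cub (K := K) (D := D) hdeg
  exact solvAt_plug hS hdeg f B C (hSv k K D d s hS hdeg C Ω f M B)

end Vale.Agent.P011.H3
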