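import Vale.Agent.P011.H3.Siz
import Mathlib.LinearAlgebra.Lagrange

/-!
Polynomial functions of bounded degree with values in a module, Lagrange interpolation for size
functions.
-/

open Module Filter Topology

set_option linter.unusedSectionVars false

namespace Vale.Agent.P011.H3

section pf

variable {F V W A : Type} [Field F] [AddCommGroup V] [Module F V] [AddCommGroup W] [Module F W]
  [Ring A] [Algebra F A]

/-- Polynomial functions of degree at most `n`. -/
def PF (n : ℕ) (f : F → V) : Prop := ∃ c : ℕ → V, ∀ t, f t = ∑ i ∈ Finset.range (n + 1), t ^ i • c i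

theorem PF.monomial (v : V) {i n : ℕ} (h : i ≤ n) : PF n fun t : F => t ^ i • v := by
  refine ⟨fun j => if j = i then v else 0, fun t => ?_⟩
  symm
  refine (Finset.sum_eq_single i (fun j _ hj => ?_)
    (fun h' => absurd (Finset.mem_range.mpr (by omega)) h')).trans ?_
  · beta_reduce
    rw [if_neg hj, smul_zero]
  · beta_reduce
    rw [if_pos rfl]

theorem PF.const (v : V) (n : ℕ) : PF n fun _ : F => v := by
  have h := PF.monomial (F := F) v (Nat.zero_le n)
  simpa using h

theorem PF.id (v : V) : PF 1 fun t : F => t • v := by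
  have h := PF.monomial (F := F) v (le_refl 1)
  simpa using h

theorem PF.mono {n m : ℕ} (h : n ≤ m) {f : F → V} (hf : PF n f) : PF m f := by
  obtain ⟨c, hc⟩ := hf
  refine ⟨fun i => if i ≤ n then c i else 0, fun t => ?_⟩
  rw [hc]
  beta_reduce
  have h1 : ∑ i ∈ Finset.range (n + 1), t ^ i • (if i ≤ n then c i else 0) =
      ∑ i ∈ Finset.range (m + 1), t ^ i • (if i ≤ n then c i else 0) := by
    refine Finset.sum_subset ?_ ?_
    · intro i hi
      rw [Finset.mem_range] at hi ⊢
      omega
    · intro i _ hi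
      rw [Finset.mem_range] at hi
      rw [if_neg (by omega), smul_zero]
  rw [← h1]
  refine Finset.sum_congr rfl fun i hi => ?_
  rw [if_pos (Nat.lt_succ_iff.mp (Finset.mem_range.mp hi))]

theorem PF.add {n : ℕ} {f g : F → V} (hf : PF n f) (hg : PF n g) : PF n fun t => f t + g t := by
  obtain ⟨c, hc⟩ := hf
  obtain ⟨c', hc'⟩ := hg
  refine ⟨fun i => c i + c' i, fun t => ?_⟩
  beta_reduce
  rw [hc, hc', ← Finset.sum_add_distrib]
  exact Finset.sum_congr rfl fun i _ => (smul_add _ _ _).symm

theorem PF.map {n : ℕ} {f : F → V} (hf : PF n f) (L : V →ₗ[F] W) : PF n fun t => L (f t) := by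
  obtain ⟨c, hc⟩ := hf
  refine ⟨fun i => L (c i), fun t => ?_⟩
  beta_reduce
  rw [hc, map_sum]
  exact Finset.sum_congr rfl fun i _ => map_smul _ _ _

theorem PF.neg {n : ℕ} {f : F → V} (hf : PF n f) : PF n fun t => -f t :=
  hf.map (-LinearMap.id)

theorem PF.sub {n : ℕ} {f g : F → V} (hf : PF n f) (hg : PF n g) : PF n fun t => f t - g t := by
  simp only [sub_eq_add_neg]
  exact hf.add hg.neg

theorem PF.sum {n : ℕ} {ι : Type} (s : Finset ι) {f : ι → F → V} (hf : ∀ i ∈ s, PF n (f i)) :
    PF n fun t => ∑ i ∈ s, f i t := by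
  classical
  induction s using Finset.induction_on with
  | empty => simpa using PF.const (F := F) (0 : V) n
  | insert a s ha ih =>
    simp only [Finset.sum_insert ha]
    exact (hf a (Finset.mem_insert_self _ _)).add
      (ih fun i hi => hf i (Finset.mem_insert_of_mem hi))

theorem PF.mul {n m : ℕ} {f g : F → A} (hf : PF n f) (hg : PF m g) :
    PF (n + m) fun t => f t * g t := by
  obtain ⟨c, hc⟩ := hf
  obtain ⟨c', hc'⟩ := hg
  have e : (fun t => f t * g t) = fun t => ∑ i ∈ Finset.range (n + 1),
      ∑ j ∈ Finset.range (m + 1), t ^ (i + j) • (c i * c' j) := by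
    funext t
    rw [hc, hc', Finset.sum_mul_sum]
    refine Finset.sum_congr rfl fun i _ => Finset.sum_congr rfl fun j _ => ?_
    rw [smul_mul_smul_comm, pow_add]
  rw [e]
  refine PF.sum _ fun i hi => PF.sum _ fun j hj => PF.monomial _ ?_
  rw [Finset.mem_range] at hi hj
  omega

open scoped Classical in
/-- Lagrange interpolation. -/
theorem PF.lagrange {n : ℕ} {f : F → V} (hf : PF n f) (S : Finset F) (hS : n < S.card) (t : F) :
    f t = ∑ s ∈ S, (Lagrange.basis S _root_.id s).eval t • f s := by
  obtain ⟨c, hc⟩ := hf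
  have hpow : ∀ i ∈ Finset.range (n + 1), t ^ i =
      ∑ s ∈ S, (Lagrange.basis S _root_.id s).eval t * s ^ i := by
    intro i hi
    rw [Finset.mem_range] at hi
    have h1 : (Polynomial.X ^ i : Polynomial F) =
        Lagrange.interpolate S _root_.id fun s => s ^ i := by
      refine Lagrange.eq_interpolate_of_eval_eq (fun s => s ^ i) Function.injective_id.injOn ?_ ?_
      · rw [Polynomial.degree_X_pow]
        exact_mod_cast (by omega : i < S.card)
      · intro s _
        rw [Polynomial.eval_pow, Polynomial.eval_X, id_eq]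
    have h2 := congrArg (Polynomial.eval t) h1
    rw [Polynomial.eval_pow, Polynomial.eval_X, Lagrange.interpolate_apply,
      Polynomial.eval_finsetSum] at h2
    rw [h2]
    refine Finset.sum_congr rfl fun s _ => ?_
    rw [Polynomial.eval_mul, Polynomial.eval_C, mul_comm]
  have h3 : f t = ∑ i ∈ Finset.range (n + 1),
      (∑ s ∈ S, (Lagrange.basis S _root_.id s).eval t * s ^ i) • c i := by
    rw [hc]
    exact Finset.sum_congr rfl fun i hi => by rw [hpow i hi]
  rw [h3]
  simp only [hc, Finset.sum_smul, Finset.smul_sum]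
  rw [Finset.sum_comm]
  refine Finset.sum_congr rfl fun s _ => Finset.sum_congr rfl fun i _ => ?_
  rw [smul_smul]

end pf

section sz

variable {F K : Type} [Field F] [Field K] [Algebra F K] {b : K → ℝ} {ω : Filter ℕ}

theorem Sz.tendsto_mul (hb : Sz b) (c : K) {f : ℕ → K} (hf : Tendsto (fun j => b (f j)) ω (𝓝 0)) :
    Tendsto (fun j => b (c * f j)) ω (𝓝 0) := by
  obtain ⟨C, hC, h⟩ := hb.mul
  have h1 : Tendsto (fun j => C * (b c * b (f j))) ω (𝓝 0) := by
    simpa using (hf.const_mul (b c)).const_mul C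
  exact squeeze_zero (fun j => hb.nonneg _) (fun j => h _ _) h1

theorem Sz.tendsto_add (hb : Sz b) {f g : ℕ → K} (hf : Tendsto (fun j => b (f j)) ω (𝓝 0))
    (hg : Tendsto (fun j => b (g j)) ω (𝓝 0)) :
    Tendsto (fun j => b (f j + g j)) ω (𝓝 0) := by
  have h1 : Tendsto (fun j => b (f j) + b (g j)) ω (𝓝 0) := by
    simpa using hf.add hg
  exact squeeze_zero (fun j => hb.nonneg _) (fun j => hb.add _ _) h1

theorem Sz.tendsto_sum (hb : Sz b) {ι : Type} (s : Finset ι) {f : ι → ℕ → K}
    (hf : ∀ i ∈ s, Tendsto (fun j => b (f i j)) ω (𝓝 0)) :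
    Tendsto (fun j => b (∑ i ∈ s, f i j)) ω (𝓝 0) := by
  classical
  induction s using Finset.induction_on with
  | empty =>
    simp only [Finset.sum_empty, hb.zero]
    exact tendsto_const_nhds
  | insert a s ha ih =>
    simp only [Finset.sum_insert ha]
    exact hb.tendsto_add (hf a (Finset.mem_insert_self _ _))
      (ih fun i hi => hf i (Finset.mem_insert_of_mem hi))

open scoped Classical in
theorem Sz.tendsto_pf (hb : Sz b) {n : ℕ} {f : ℕ → F → K} (hf : ∀ j, PF n (f j)) (S : Finset F)
    (hS : n < S.card) (h : ∀ s ∈ S, Tendsto (fun j => b (f j s)) ω (𝓝 0)) (t : F) :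
    Tendsto (fun j => b (f j t)) ω (𝓝 0) := by
  have e : (fun j => b (f j t)) = fun j => b (∑ s ∈ S,
      algebraMap F K ((Lagrange.basis S id s).eval t) * f j s) := by
    funext j
    rw [(hf j).lagrange S hS t]
    simp only [Algebra.smul_def]
  rw [e]
  exact hb.tendsto_sum S fun s hs => hb.tendsto_mul _ (h s hs)

/-- A family of polynomial functions which does not tend to zero at some point tends to zero at
finitely many points only. -/
theorem Sz.finite_null (hb : Sz b) {n : ℕ} {f : ℕ → F → K} (hf : ∀ j, PF n (f j)) {t₀ : F}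
    (h : ¬ Tendsto (fun j => b (f j t₀)) ω (𝓝 0)) :
    {t : F | Tendsto (fun j => b (f j t)) ω (𝓝 0)}.Finite := by
  by_contra hinf
  obtain ⟨S, hS, hc⟩ := Set.Infinite.exists_subset_card_eq hinf (n + 1)
  exact h (hb.tendsto_pf hf S (by omega) (fun s hs => hS hs) t₀)

end sz

end Vale.Agent.P011.H3
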