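import Vale.Agent.P011.H3.Lim

/-!
Sequences of scalars which are bounded away from zero.
-/

open Module Filter Topology

set_option linter.unusedSectionVars false
set_option linter.unusedVariables false

namespace Vale.Agent.P011.H3

open Vale.Agent.P011.H182 Vale.Agent.P011.H775 Vale.Agent.P011.H948

/-- Sequences of scalars bounded away from zero. -/
def Pos {K : Type} (b : K → ℝ) (ω : Filter ℕ) (f : ℕ → K) : Prop :=
  ∃ c : ℝ, 0 < c ∧ ∀ᶠ j in ω, c ≤ b (f j)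

section sz

variable {K : Type} [Field K] {b : K → ℝ}

theorem Pos.of_not {ω : Ultrafilter ℕ} (hb : Sz b) {f : ℕ → K}
    (h : ¬ Tendsto (fun j => b (f j)) ω (𝓝 0)) : Pos b ω f := by
  rw [Metric.tendsto_nhds] at h
  push Not at h
  obtain ⟨ε, hε, h⟩ := h
  refine ⟨ε, hε, ?_⟩
  filter_upwards [h] with j hj
  rwa [Real.dist_eq, sub_zero, abs_of_nonneg (hb.nonneg _)] at hj

theorem Pos.not {ω : Filter ℕ} [ω.NeBot] {f : ℕ → K} (h : Pos b ω f) :
    ¬ Tendsto (fun j => b (f j)) ω (𝓝 0) := by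
  intro h1
  obtain ⟨c, hc, h⟩ := h
  have h2 := h1.eventually (gt_mem_nhds hc)
  obtain ⟨j, h3, h4⟩ := (h.and h2).exists
  linarith

variable {ω : Filter ℕ}

theorem Pos.const (hb : Sz b) {c : K} (hc : c ≠ 0) : Pos b ω fun _ => c := by
  refine ⟨b c, ?_, Eventually.of_forall fun _ => le_rfl⟩
  obtain ⟨C, hC, hm⟩ := hb.mul
  have h1 := hm c c⁻¹
  rw [mul_inv_cancel₀ hc] at h1
  have h2 := hb.one
  have h3 : b c ≠ 0 := by
    intro h3
    rw [h3, zero_mul, mul_zero] at h1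
    linarith
  exact lt_of_le_of_ne (hb.nonneg c) h3.symm

theorem Pos.mul (hb : Sz b) {f g : ℕ → K} (hf : Pos b ω f) (hg : Pos b ω g) :
    Pos b ω fun j => f j * g j := by
  obtain ⟨c, hc, h1⟩ := hf
  obtain ⟨c', hc', h2⟩ := hg
  obtain ⟨C, hC, hl⟩ := hb.low
  refine ⟨c * c' / C, by positivity, ?_⟩
  filter_upwards [h1, h2] with j h3 h4
  rw [div_le_iff₀ hC]
  calc c * c' ≤ b (f j) * b (g j) := by
        have := hb.nonneg (f j)
        gcongr
    _ ≤ C * b (f j * g j) := hl _ _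
    _ = _ := mul_comm _ _

theorem Pos.ne {f : ℕ → K} (hb : Sz b) (hf : Pos b ω f) : ∀ᶠ j in ω, f j ≠ 0 := by
  obtain ⟨c, hc, h1⟩ := hf
  filter_upwards [h1] with j h3 h0
  rw [h0, hb.zero] at h3
  linarith

end sz

section comps

variable {k K D : Type} [Field k] [Field K] [DivisionRing D] [Algebra k K]
  [Algebra k D] [Algebra K D] [IsScalarTower k K D] {M : ℕ}
  {B : Basis (Fin M) k D} {a : AbsoluteValue k ℝ} {ω : Filter ℕ} {ι : Type} [Fintype ι]
  {b : ι → K → ℝ}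

theorem Comps.bdd (hb : Comps B a b) {f : ℕ → K} (hf : BdK (D := D) B a ω f) (i : ι) :
    ∃ R : ℝ, ∀ᶠ j in ω, b i (f j) ≤ R := by
  obtain ⟨c, hc, hle⟩ := hb.le
  obtain ⟨R, hR⟩ := hf
  refine ⟨c * R, ?_⟩
  filter_upwards [hR] with j hj
  exact (hle _ _).trans (mul_le_mul_of_nonneg_left hj hc.le)

theorem Comps.null (hb : Comps B a b) {f g : ℕ → K} (hf : EqK (D := D) B a ω f g) (i : ι) :
    Tendsto (fun j => b i (f j - g j)) ω (𝓝 0) := by
  obtain ⟨c, hc, hle⟩ := hb.le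
  have h1 : Tendsto (fun j => c * nK B a (f j - g j)) ω (𝓝 0) := by
    have h2 := Tendsto.const_mul c hf
    simp only [← map_sub, mul_zero] at h2
    exact h2
  exact squeeze_zero (fun j => (hb.sz i).nonneg _) (fun j => hle _ _) h1

theorem Comps.null0 (hb : Comps B a b) {f : ℕ → K} (hf : EqK (D := D) B a ω f fun _ => 0)
    (i : ι) : Tendsto (fun j => b i (f j)) ω (𝓝 0) := by
  have := hb.null hf i
  simpa only [sub_zero] using this

theorem Comps.pos_eqK (hb : Comps B a b) {f g : ℕ → K} (hf : EqK (D := D) B a ω f g) {i : ι}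
    (hg : Pos (b i) ω g) : Pos (b i) ω f := by
  obtain ⟨c, hc, hg⟩ := hg
  refine ⟨c / 2, by positivity, ?_⟩
  have h1 := (hb.null hf.symm i).eventually (gt_mem_nhds (half_pos hc))
  filter_upwards [h1, hg] with j h2 h3
  have h4 := (hb.sz i).add (g j - f j) (f j)
  rw [sub_add_cancel] at h4
  linarith

/-- A bounded factor does not matter. -/
theorem Comps.pos_of_mul (hb : Comps B a b) {f g : ℕ → K} {i : ι}
    (h : Pos (b i) ω fun j => f j * g j) (hg : BdK (D := D) B a ω g) : Pos (b i) ω f := by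
  obtain ⟨c, hc, h⟩ := h
  obtain ⟨R, hR⟩ := hb.bdd hg i
  obtain ⟨C, hC, hm⟩ := (hb.sz i).mul
  refine ⟨c / (C * (|R| + 1)), by positivity, ?_⟩
  filter_upwards [h, hR] with j h1 h2
  rw [div_le_iff₀ (by positivity)]
  have h3 : b i (g j) ≤ |R| + 1 := h2.trans (by linarith [le_abs_self R])
  have h4 := (hb.sz i).nonneg (f j)
  calc c ≤ b i (f j * g j) := h1
    _ ≤ C * (b i (f j) * b i (g j)) := hm _ _
    _ ≤ C * (b i (f j) * (|R| + 1)) := by gcongr
    _ = _ := by ring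

theorem Comps.inv_bd (hb : Comps B a b) {f : ℕ → K} (h : ∀ i, Pos (b i) ω f) :
    (∀ᶠ j in ω, f j ≠ 0) ∧ BdK (D := D) B a ω fun j => (f j)⁻¹ := by
  obtain ⟨i₀⟩ := hb.ne
  have h0 := Pos.ne (hb.sz i₀) (h i₀)
  refine ⟨h0, ?_⟩
  obtain ⟨c, hc, hge⟩ := hb.ge
  have h1 : ∀ i, ∃ R : ℝ, ∀ᶠ j in ω, b i (f j)⁻¹ ≤ R := by
    intro i
    obtain ⟨c', hc', h⟩ := h i
    obtain ⟨C, hC, hl⟩ := (hb.sz i).low
    refine ⟨C * b i 1 / c', ?_⟩
    filter_upwards [h, h0] with j h2 h3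
    have h4 := hl (f j)⁻¹ (f j)
    rw [inv_mul_cancel₀ h3] at h4
    rw [le_div_iff₀ hc']
    refine le_trans ?_ h4
    exact mul_le_mul_of_nonneg_left h2 ((hb.sz i).nonneg _)
  choose R hR using h1
  refine ⟨c * ∑ i, R i, ?_⟩
  have h2 : ∀ᶠ j in ω, ∀ i, b i (f j)⁻¹ ≤ R i := eventually_all.mpr hR
  filter_upwards [h2] with j hj
  refine (hge _).trans (mul_le_mul_of_nonneg_left ?_ hc.le)
  exact Finset.sum_le_sum fun i _ => hj i

end comps

end Vale.Agent.P011.H3
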