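import Vale.Agent.P011.H3.Final
import Vale.Agent.P011.H339.First
import Vale.Agent.P011.H756.Reach
import Vale.Agent.P011.H511.LineStep
import Vale.Agent.P011.H521.Comps
import Vale.Agent.P011.H505.Xi8
import Vale.Agent.P011.H73.ND2
import Vale.Agent.P011.H961.NdS

/-!
**Reachability over number fields.**
-/

open Module NumberField IsDedekindDomain Filter Topology

set_option linter.unusedSectionVars false
set_option linter.unusedVariables false

namespace Vale.Agent.P011.H3

open Vale.Agent.P011.Arith Vale.Agent.P011.Even Vale.Agent.P011.H182 Vale.Agent.P011.H775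
  Vale.Agent.P011.H948 Vale.Agent.P011.H929 Vale.Agent.P011.H748

variable {k K D : Type} [Field k] [NumberField k] [Field K] [StarRing K]
  [DivisionRing D] [StarRing D] [Algebra k K] [Algebra k D] [Algebra K D] [IsScalarTower k K D]
  {d : kˣ} {s : K} {M : ℕ}

/-- **Reachability over number fields.** -/
theorem reach_nf (hS : Setting k K D d s) (hdeg : finrank K D = 3 ^ 2) (C : Cub K D)
    (B : Basis (Fin M) k D) : Reach C B d := by
  intro x u hx hxN hx3 hu hT P hP w ht ε hε J
  have hfin := hS.fin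
  have hcen := hS.cen
  have hsc : SCub C := sCub_of C hdeg hS.star_smul
  have hk : ∀ c : k, star (algebraMap k K c) = algebraMap k K c := fun c =>
    (hS.fix _).mpr ⟨c, rfl⟩
  have h2 : (2 : k) ≠ 0 := two_ne_zero
  have hchar := char_K hS
  have hs0 : s ≠ 0 := s_ne_zero hS
  obtain ⟨w1, h3, h4, h5, h6⟩ := H756.reach_of_first (ab := plAbv) hsc hk h2 hS.star_s hs0
    (fun c hc => (hS.fix c).mp hc) B hu hT hP
    (V0 := {p | ∃ v : HeightOneSpectrum (𝓞 k), p = Sum.inl v ∧ d ∉ LS (v.valuation k)})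
    (Good := fun p w => ∀ v : HeightOneSpectrum (𝓞 k), p = Sum.inl v → GoodInt B v w (x * w))
    (fun p _ w l _ hw v hv => H511.goodInt_smul l (hw v hv))
    (fun u' hu' hT' ξ hξ ε hε => by
      obtain ⟨w, h3, h4, h5, h6⟩ := H511.line_step hS C hdeg B hx hxN hx3 hu' hT' hP ξ hξ hε
      refine ⟨w, h3, h4, h5, ?_⟩
      rintro p ⟨v, rfl, hv⟩ hvP hg v' hv'
      obtain rfl := Sum.inl_injective hv'
      exact h6 v hvP hv (hg v rfl))
    (fun l hl ε hε => H521.k1_approx hS B hP l hl hε) w ht
    (fun p hp κ _ b hb hw => H339.first_step hsc hk two_ne_zero (ω := hyperfilter ℕ) hb hx hu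
      (fun e => H961.nd_star hsc hx hxN hx3 hu hT e)
      (H73.ND.nd_setting hS C hdeg (P := star ((x - 1) * u)) (star_ne_zero.mpr (by
        intro h0
        exact H961.nd_star hsc hx hxN hx3 hu hT 0 (by rw [h0, zero_smul]))))
      (H505.exists_xi8' hS C hdeg (by
        intro h0
        exact H961.nd_star hsc hx hxN hx3 hu hT 0 (by rw [h0, zero_smul]))) hw) hε J
  refine ⟨w1, h3, h4, h5, fun v hvP hv hg => h6 (Sum.inl v) ⟨v, rfl, hv⟩ hvP ?_ v rfl⟩
  intro v' hv'
  obtain rfl := Sum.inl_injective hv'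
  exact hg

end Vale.Agent.P011.H3
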