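import Vale.Agent.P011.H3.Plug
import Vale.Agent.P011.H487.Sva
import Vale.Agent.P011.H976.RHNF

/-!
**The solvable step and the conjecture in degree three.**
-/

open Module NumberField IsDedekindDomain

namespace Vale.Agent.P011.H3

open Vale.Agent.P011.Arith Vale.Agent.P011.Even Vale.Agent.P011.Two Vale.Agent.P011.One
  Vale.Agent.P011.H775 Vale.Agent.P011.H976

/-- **The solvable step in degree three.** -/
theorem solv_three : Solv 3 :=
  solv_three_of fun k K D _ _ _ _ _ _ _ _ _ _ _ d s hS hdeg C Ω _ _ f M B =>
    H487.sv hS hdeg C f B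

end Vale.Agent.P011.H3
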