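import Vale.Agent.P011.H3.Alpha

/-!
The first step: from any base point which is not special to a base point in general position.
-/

open Module Filter Topology

set_option linter.unusedSectionVars false
set_option linter.unusedVariables false

namespace Vale.Agent.P011.H3

open Vale.Agent.P011.H182 Vale.Agent.P011.H775 Vale.Agent.P011.H948 Vale.Agent.P011.H748

section ef

variable {K D : Type} [Field K] [DivisionRing D] [Algebra K D] (C : Cub K D)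

/-- `T (Q m m'^#)` for `m = β(z, ξ)`, `m' = β(z', ξ)`. -/
def Ef (z z' Q ξ : D) : K := C.T (Q * be C z ξ * C.adj (be C z' ξ))

/-- The alternating expression in `P`, `Q`. -/
def Rf (P Q ξ : D) : K := C.T (Q * C.adj ξ) * C.T (P * ξ) - C.T (P * C.adj ξ) * C.T (Q * ξ)

theorem Ef_eq (z z' Q ξ : D) : Ef C z z' Q ξ =
    (C.T (z * C.adj ξ) * C.T (z' * C.adj ξ) ^ 2 +
      C.T (z * C.adj ξ) * C.T (z' * C.adj ξ) * C.T (z' * ξ) * C.T ξ +
      C.T (z * ξ) * C.T (z' * ξ) ^ 2 * C.N ξ +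
      C.T (z * ξ) * C.T (z' * C.adj ξ) * C.T (z' * ξ) * C.S ξ) * C.T Q +
    Rf C z' z ξ * Rf C z' Q ξ := by
  rw [Ef, Rf, Rf]
  set σ := C.T (z * C.adj ξ) with hσ
  set τ := C.T (z * ξ) with hτ
  set σ' := C.T (z' * C.adj ξ) with hσ'
  set τ' := C.T (z' * ξ) with hτ'
  have h1 : be C z ξ = σ • (1 : D) + τ • ξ := rfl
  have h2 : C.adj (be C z' ξ) = (σ' ^ 2 + σ' * τ' * C.T ξ) • (1 : D) - (σ' * τ') • ξ +
      τ' ^ 2 • C.adj ξ := by
    have h3 : be C z' ξ = σ' • (1 : D) + τ' • ξ := rfl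
    rw [h3, C.adj_add, adj_smul_one, C.adj_smul, C.cr_comm, C.cr_smul_left, C.cr_smul_right,
      cr_one]
    module
  have h3 : ξ * ξ = C.adj ξ + C.T ξ • ξ - C.S ξ • (1 : D) := by
    rw [C.adj_eq]
    abel
  have h4 : ξ * C.adj ξ = C.N ξ • (1 : D) := C.mul_adj ξ
  have h5 : be C z ξ * C.adj (be C z' ξ) =
      (σ * σ' ^ 2 + σ * σ' * τ' * C.T ξ + τ * τ' ^ 2 * C.N ξ + τ * σ' * τ' * C.S ξ) • (1 : D) +
        (τ * σ' ^ 2 - σ * σ' * τ') • ξ + (σ * τ' ^ 2 - τ * σ' * τ') • C.adj ξ := by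
    rw [h1, h2]
    simp only [add_mul, mul_add, mul_sub, smul_mul_assoc, mul_smul_comm, one_mul, mul_one, h3, h4]
    module
  rw [mul_assoc, h5]
  simp only [mul_add, mul_smul_comm, mul_one, map_add, map_smul, smul_eq_mul]
  ring

end ef

section pf

variable {F K D : Type} [Field F] [Field K] [DivisionRing D] [Algebra F K] [Algebra F D]
  [Algebra K D] [IsScalarTower F K D] {C : Cub K D}

theorem PF.mulc {n : ℕ} {f : F → D} (hf : PF n f) (z : D) : PF n fun t => z * f t :=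
  hf.map (LinearMap.mulLeft F z)

theorem PF.bef (h2 : (2 : K) ≠ 0) (z : D) {f : F → D} (hf : PF 1 f) :
    PF 2 fun t => be C z (f t) := by
  have h1 := ((hf.adjf (C := C) h2).mulc z).Tf (C := C)
  have h3 := (h1.smulf (PF.const (F := F) (1 : D) 0)).add (((hf.mulc z).Tf (C := C)).smulf hf)
  exact h3

theorem PF.Eff (h2 : (2 : K) ≠ 0) (z z' Q : D) {f : F → D} (hf : PF 1 f) :
    PF 6 fun t => Ef C z z' Q (f t) :=
  ((((hf.bef (C := C) h2 z).mulc Q).mul ((hf.bef (C := C) h2 z').adjf h2)).Tf (C := C))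

theorem PF.Rff (h2 : (2 : K) ≠ 0) (P Q : D) {f : F → D} (hf : PF 1 f) :
    PF 3 fun t => Rf C P Q (f t) := by
  have h1 := hf.adjf (C := C) h2
  have h3 := ((h1.mulc Q).Tf (C := C)).mul ((hf.mulc P).Tf (C := C))
  have h4 := ((h1.mulc P).Tf (C := C)).mul ((hf.mulc Q).Tf (C := C))
  exact h3.sub h4

theorem PF.line (x y : D) : PF 1 fun t : F => x + t • (y - x) :=
  (PF.const x 1).add (PF.id _)

end pf

section step

variable {k K D : Type} [Field k] [Infinite k] [Field K] [StarRing K] [DivisionRing D]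
  [StarRing D] [Algebra k K] [Algebra k D] [Algebra K D] [IsScalarTower k K D] {C : Cub K D}
  {M : ℕ} {B : Basis (Fin M) k D} {a : AbsoluteValue k ℝ}

theorem symm_line (hsm : ∀ (c : k) (x : D), star (c • x) = c • star x) {x y : D}
    (hx : star x = x) (hy : star y = y) (t : k) :
    star (x + t • (y - x)) = x + t • (y - x) := by
  rw [star_add, hsm, star_sub, hx, hy]

/-- **The first step.** -/
theorem step1 (hsm : ∀ (c : k) (x : D), star (c • x) = c • star x) (h2 : (2 : K) ≠ 0)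
    {ω : Ultrafilter ℕ} {ι : Type} [Fintype ι] {b : ι → K → ℝ} (hb : Comps B a b) {z : D}
    (hnd : ∀ e : K, z ≠ e • star z)
    (hND : ∃ (m : ℕ) (ξ t : Fin m → D), (∀ i, star (ξ i) = ξ i) ∧
      ∀ Q : D, ∃ e : K, Q = e • star z + ∑ i, Rf C (star z) Q (ξ i) • t i)
    (h8 : ∃ ξ : D, star ξ = ξ ∧ C.T (z * ξ) = 0 ∧ C.T (z * C.adj ξ) ≠ 0)
    (h8' : ∀ ξ : D, star ξ = ξ → star (C.T (z * ξ)) = C.T (star z * ξ) ∧
      star (C.T (z * C.adj ξ)) = C.T (star z * C.adj ξ))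
    {Q : ℕ → D} (hQ : ∀ i, NS ω (b i) (star z) Q) :
    ∃ ξ : D, star ξ = ξ ∧ ∀ i, Pos (b i) ω fun j => Ef C z (star z) (Q j) ξ := by
  classical
  -- one component
  have hone : ∀ i, ∃ ξ : D, star ξ = ξ ∧ Pos (b i) ω fun j => Ef C z (star z) (Q j) ξ := by
    intro i
    have hsz := hb.sz i
    by_cases hT : Tendsto (fun j => b i (C.T (Q j))) ω (𝓝 0)
    · obtain ⟨m, ξ, t, hξ, hR⟩ := hND
      -- a point with large `R`
      obtain ⟨i₁, hi₁⟩ : ∃ i₁, ¬ Tendsto (fun j => b i (Rf C (star z) (Q j) (ξ i₁))) ω (𝓝 0) := by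
        choose e he using fun j => hR (Q j)
        exact hQ i m t e (fun j l => Rf C (star z) (Q j) (ξ l)) he
      -- a point with `κ ≠ 0`
      obtain ⟨i₂, hi₂⟩ : ∃ i₂, Rf C (star z) z (ξ i₂) ≠ 0 := by
        by_contra hcon
        push Not at hcon
        obtain ⟨e, he⟩ := hR z
        apply hnd e
        rw [Finset.sum_eq_zero (fun i _ => by rw [hcon i, zero_smul]), add_zero] at he
        exact he
      have hf1 := hsz.finite_null (ω := ω)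
        (f := fun j (t : k) => Rf C (star z) (Q j) (ξ i₁ + t • (ξ i₂ - ξ i₁)))
        (fun j => (PF.line (ξ i₁) (ξ i₂)).Rff h2 _ _) (t₀ := 0) (by
          simpa only [zero_smul, add_zero] using hi₁)
      have hf2 := hsz.finite_null (ω := ω)
        (f := fun (_ : ℕ) (t : k) => Rf C (star z) z (ξ i₁ + t • (ξ i₂ - ξ i₁)))
        (fun j => (PF.line (ξ i₁) (ξ i₂)).Rff h2 _ _) (t₀ := 1) (by
          simp only [one_smul, add_sub_cancel]
          exact (Pos.const hsz hi₂).not)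
      obtain ⟨t, ht⟩ := (hf1.union hf2).exists_notMem
      rw [Set.mem_union, not_or] at ht
      refine ⟨ξ i₁ + t • (ξ i₂ - ξ i₁), symm_line hsm (hξ _) (hξ _) t, ?_⟩
      have h3 : Pos (b i) ω fun j => Rf C (star z) (Q j) (ξ i₁ + t • (ξ i₂ - ξ i₁)) :=
        Pos.of_not hsz ht.1
      have h4 : Pos (b i) ω fun _ => Rf C (star z) z (ξ i₁ + t • (ξ i₂ - ξ i₁)) :=
        Pos.of_not hsz ht.2
      have h5 := Pos.mul hsz h4 h3
      obtain ⟨c, hc, h5⟩ := h5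
      refine ⟨c / 2, by positivity, ?_⟩
      have h6 := (hsz.tendsto_mul (-(C.T (z * C.adj (ξ i₁ + t • (ξ i₂ - ξ i₁))) *
        C.T (star z * C.adj (ξ i₁ + t • (ξ i₂ - ξ i₁))) ^ 2 +
        C.T (z * C.adj (ξ i₁ + t • (ξ i₂ - ξ i₁))) *
          C.T (star z * C.adj (ξ i₁ + t • (ξ i₂ - ξ i₁))) *
          C.T (star z * (ξ i₁ + t • (ξ i₂ - ξ i₁))) * C.T (ξ i₁ + t • (ξ i₂ - ξ i₁)) +
        C.T (z * (ξ i₁ + t • (ξ i₂ - ξ i₁))) *
          C.T (star z * (ξ i₁ + t • (ξ i₂ - ξ i₁))) ^ 2 * C.N (ξ i₁ + t • (ξ i₂ - ξ i₁)) +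
        C.T (z * (ξ i₁ + t • (ξ i₂ - ξ i₁))) *
          C.T (star z * C.adj (ξ i₁ + t • (ξ i₂ - ξ i₁))) *
          C.T (star z * (ξ i₁ + t • (ξ i₂ - ξ i₁))) * C.S (ξ i₁ + t • (ξ i₂ - ξ i₁)))) hT).eventually
        (gt_mem_nhds (half_pos hc))
      filter_upwards [h5, h6] with j h7 h9
      have h10 := hsz.add (Ef C z (star z) (Q j) (ξ i₁ + t • (ξ i₂ - ξ i₁)))
        (-(C.T (z * C.adj (ξ i₁ + t • (ξ i₂ - ξ i₁))) *
        C.T (star z * C.adj (ξ i₁ + t • (ξ i₂ - ξ i₁))) ^ 2 +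
        C.T (z * C.adj (ξ i₁ + t • (ξ i₂ - ξ i₁))) *
          C.T (star z * C.adj (ξ i₁ + t • (ξ i₂ - ξ i₁))) *
          C.T (star z * (ξ i₁ + t • (ξ i₂ - ξ i₁))) * C.T (ξ i₁ + t • (ξ i₂ - ξ i₁)) +
        C.T (z * (ξ i₁ + t • (ξ i₂ - ξ i₁))) *
          C.T (star z * (ξ i₁ + t • (ξ i₂ - ξ i₁))) ^ 2 * C.N (ξ i₁ + t • (ξ i₂ - ξ i₁)) +
        C.T (z * (ξ i₁ + t • (ξ i₂ - ξ i₁))) *
          C.T (star z * C.adj (ξ i₁ + t • (ξ i₂ - ξ i₁))) *
          C.T (star z * (ξ i₁ + t • (ξ i₂ - ξ i₁))) * C.S (ξ i₁ + t • (ξ i₂ - ξ i₁))) * C.T (Q j))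
      have e : Ef C z (star z) (Q j) (ξ i₁ + t • (ξ i₂ - ξ i₁)) +
        -(C.T (z * C.adj (ξ i₁ + t • (ξ i₂ - ξ i₁))) *
        C.T (star z * C.adj (ξ i₁ + t • (ξ i₂ - ξ i₁))) ^ 2 +
        C.T (z * C.adj (ξ i₁ + t • (ξ i₂ - ξ i₁))) *
          C.T (star z * C.adj (ξ i₁ + t • (ξ i₂ - ξ i₁))) *
          C.T (star z * (ξ i₁ + t • (ξ i₂ - ξ i₁))) * C.T (ξ i₁ + t • (ξ i₂ - ξ i₁)) +
        C.T (z * (ξ i₁ + t • (ξ i₂ - ξ i₁))) *
          C.T (star z * (ξ i₁ + t • (ξ i₂ - ξ i₁))) ^ 2 * C.N (ξ i₁ + t • (ξ i₂ - ξ i₁)) +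
        C.T (z * (ξ i₁ + t • (ξ i₂ - ξ i₁))) *
          C.T (star z * C.adj (ξ i₁ + t • (ξ i₂ - ξ i₁))) *
          C.T (star z * (ξ i₁ + t • (ξ i₂ - ξ i₁))) * C.S (ξ i₁ + t • (ξ i₂ - ξ i₁))) * C.T (Q j) =
          Rf C (star z) z (ξ i₁ + t • (ξ i₂ - ξ i₁)) *
            Rf C (star z) (Q j) (ξ i₁ + t • (ξ i₂ - ξ i₁)) := by
        rw [Ef_eq]
        ring
      rw [e] at h10
      linarith
    · obtain ⟨ξ, hξ, h3, h4⟩ := h8
      refine ⟨ξ, hξ, ?_⟩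
      obtain ⟨h5, h6⟩ := h8' ξ hξ
      have h7 : C.T (star z * C.adj ξ) ≠ 0 := by
        rw [← h6]
        exact star_ne_zero.mpr h4
      have e : (fun j => Ef C z (star z) (Q j) ξ) = fun j =>
          C.T (z * C.adj ξ) * C.T (star z * C.adj ξ) ^ 2 * C.T (Q j) := by
        funext j
        rw [Ef_eq, Rf, Rf, ← h5, h3, star_zero]
        ring
      rw [e]
      exact Pos.mul hsz (Pos.const hsz (mul_ne_zero h4 (pow_ne_zero _ h7)))
        (Pos.of_not hsz hT)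
  -- all components
  have hall : ∀ S : Finset ι, ∃ ξ : D, star ξ = ξ ∧
      ∀ i ∈ S, Pos (b i) ω fun j => Ef C z (star z) (Q j) ξ := by
    intro S
    induction S using Finset.induction_on with
    | empty => exact ⟨0, star_zero _, fun i hi => absurd hi (Finset.notMem_empty i)⟩
    | insert i S hi ih =>
      obtain ⟨ξ₁, hξ₁, h1⟩ := ih
      obtain ⟨ξ₂, hξ₂, h3⟩ := hone i
      have hf1 : ∀ l ∈ S, {t : k | Tendsto (fun j => b l (Ef C z (star z) (Q j)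
          (ξ₁ + t • (ξ₂ - ξ₁)))) ω (𝓝 0)}.Finite := by
        intro l hl
        refine (hb.sz l).finite_null (ω := ω)
          (f := fun j (t : k) => Ef C z (star z) (Q j) (ξ₁ + t • (ξ₂ - ξ₁)))
          (fun j => (PF.line ξ₁ ξ₂).Eff h2 _ _ _) (t₀ := 0) ?_
        simpa only [zero_smul, add_zero] using (h1 l hl).not
      have hf2 : {t : k | Tendsto (fun j => b i (Ef C z (star z) (Q j)
          (ξ₁ + t • (ξ₂ - ξ₁)))) ω (𝓝 0)}.Finite := by
        refine (hb.sz i).finite_null (ω := ω)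
          (f := fun j (t : k) => Ef C z (star z) (Q j) (ξ₁ + t • (ξ₂ - ξ₁)))
          (fun j => (PF.line ξ₁ ξ₂).Eff h2 _ _ _) (t₀ := 1) ?_
        simpa only [one_smul, add_sub_cancel] using h3.not
      have hf3 : (⋃ l ∈ S, {t : k | Tendsto (fun j => b l (Ef C z (star z) (Q j)
          (ξ₁ + t • (ξ₂ - ξ₁)))) ω (𝓝 0)}).Finite := Set.Finite.biUnion S.finite_toSet hf1
      obtain ⟨t, ht⟩ := (hf3.union hf2).exists_notMem
      rw [Set.mem_union, not_or] at ht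
      refine ⟨ξ₁ + t • (ξ₂ - ξ₁), symm_line hsm hξ₁ hξ₂ t, fun l hl => ?_⟩
      rcases Finset.mem_insert.mp hl with rfl | hl
      · exact Pos.of_not (hb.sz l) ht.2
      · refine Pos.of_not (hb.sz l) fun h4 => ht.1 ?_
        exact Set.mem_biUnion hl h4
  obtain ⟨ξ, hξ, h1⟩ := hall Finset.univ
  exact ⟨ξ, hξ, fun i => h1 i (Finset.mem_univ i)⟩

end step

end Vale.Agent.P011.H3
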