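import Vale.Agent.P011.H3.Pos

/-!
The parametrisation reaches every sequence of approximate solutions from a base point in general
position.
-/

open Module Filter Topology

set_option linter.unusedSectionVars false
set_option linter.unusedVariables false

namespace Vale.Agent.P011.H3

open Vale.Agent.P011.H182 Vale.Agent.P011.H775 Vale.Agent.P011.H948 Vale.Agent.P011.H748

section cub

variable {k K D : Type} [Field k] [Field K] [StarRing K] [DivisionRing D] [StarRing D]
  [Algebra k K] [Algebra k D] [Algebra K D] [IsScalarTower k K D] {C : Cub K D} {M : ℕ}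
  {B : Basis (Fin M) k D} {a : AbsoluteValue k ℝ} {ω : Filter ℕ}

theorem Bd.N (h2 : (2 : k) ≠ 0) {f : ℕ → D} (hf : Bd B a ω f) :
    BdK (D := D) B a ω fun j => C.N (f j) := by
  have h1 := hf.mul (Bd.adj (C := C) h2 hf)
  simp only [C.mul_adj, ← Algebra.algebraMap_eq_smul_one] at h1
  exact h1

theorem Eqv.N (h2 : (2 : k) ≠ 0) {f g : ℕ → D} (h : Eqv B a ω f g) (hg : Bd B a ω g) :
    EqK (D := D) B a ω (fun j => C.N (f j)) fun j => C.N (g j) := by
  have h1 := h.mul (Eqv.adj (C := C) h2 h hg) hg (Bd.adj (C := C) h2 hg)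
  simp only [C.mul_adj, ← Algebra.algebraMap_eq_smul_one] at h1
  exact h1

variable (h : SCub C) (hk : ∀ c : k, star (algebraMap k K c) = algebraMap k K c)
  (h2 : (2 : k) ≠ 0)

include h hk h2

omit h2 in
theorem unit_comm {v : ℕ → D} (bv : Bd B a ω v)
    (hv : Eqv B a ω (fun j => star (v j) * v j) fun _ => 1) :
    Eqv B a ω (fun j => v j * star (v j)) fun _ => 1 := by
  obtain ⟨h1, h2, h3⟩ := Eqv.inv_of_mul hv bv
  have h4 := h3.symm.mul (Eqv.refl fun j => star (v j)) h2 (Bd.star h hk bv)
  refine h4.trans (Eqv.congr' (Eqv.refl _) ?_)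
  filter_upwards [h1] with j hj
  rw [inv_mul_cancel₀ hj]

theorem adj_unit {v : ℕ → D} (bv : Bd B a ω v)
    (hv : Eqv B a ω (fun j => v j * star (v j)) fun _ => 1) :
    Eqv B a ω (fun j => C.adj (v j)) fun j => C.N (v j) • star (v j) := by
  have h1 := (Eqv.refl (fun j => C.adj (v j))).mul hv.symm (Bd.adj (C := C) h2 bv)
    (hv.bd (Bd.const 1))
  have e : (fun j => C.adj (v j) * (v j * star (v j))) = fun j => C.N (v j) • star (v j) := by
    funext j
    rw [← mul_assoc, C.adj_mul, smul_mul_assoc, one_mul]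
  rw [e] at h1
  simpa only [mul_one] using h1

theorem N_unit {v : ℕ → D} (bv : Bd B a ω v)
    (hv : Eqv B a ω (fun j => v j * star (v j)) fun _ => 1) :
    EqK (D := D) B a ω (fun j => C.N (v j) * star (C.N (v j))) fun _ => 1 := by
  have h1 := Eqv.N (C := C) h2 hv (Bd.const 1)
  simpa only [C.N_mul, h.N, C.N_one] using h1

/-- The element `B₁` of the parametrisation. -/
def B1 (C : Cub K D) (p q : K) (v y : D) : D :=
  (p ^ 2 * C.N v - p * q * C.T v) • (1 : D) + (p * q) • v + q ^ 2 • y

theorem step2_be {z : D} (hz : C.T z = 0) {v : ℕ → D} (bv : Bd B a ω v)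
    (hv : Eqv B a ω (fun j => star (v j) * v j) fun _ => 1)
    (hzv : EqK (D := D) B a ω (fun j => C.T (z * v j)) fun _ => 0) (α : K) :
    Eqv B a ω (fun j => be C z (α • v j + star (α • v j)))
      (fun j => C.T (z * star (v j)) • B1 C α (star α) (v j) (star (v j))) := by
  have hv' := unit_comm h hk bv hv
  have by' := Bd.star h hk bv
  have hA := adj_unit h hk h2 (C := C) bv hv'
  have hAy := adj_unit h hk h2 (C := C) (v := fun j => star (v j)) by' (by
    simpa only [star_star] using hv)
  simp only [star_star] at hAy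
  have bN := Bd.N (C := C) h2 bv
  have bNy := Bd.N (C := C) h2 by'
  have bT := Bd.T (C := C) bv
  have bz : Bd B a ω fun _ : ℕ => z := Bd.const z
  have b1 : BdK (D := D) B a ω fun _ : ℕ => (1 : K) := BdK.const 1
  -- β
  set β : ℕ → K := fun j => C.T (z * star (v j)) with hβ
  have bβ : BdK (D := D) B a ω β := Bd.T (C := C) (bz.mul by')
  -- T (z adj v)
  have h3 : EqK (D := D) B a ω (fun j => C.T (z * C.adj (v j))) fun j => C.N (v j) * β j := by
    have h3 := Eqv.T (C := C) ((Eqv.refl fun _ => z).mul hA bz (Bd.smul bN by'))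
    simpa only [mul_smul_comm, map_smul, smul_eq_mul] using h3
  have h4 : EqK (D := D) B a ω (fun j => C.T (z * C.adj (star (v j)))) fun j => 0 := by
    have h3 := Eqv.T (C := C) ((Eqv.refl fun _ => z).mul hAy bz (Bd.smul bNy bv))
    have h4 := (EqK.refl (D := D) (B := B) (a := a) (ω := ω) (fun j => C.N (star (v j)))).mul hzv
      bNy (BdK.const 0)
    simp only [mul_zero] at h4
    refine EqK.trans ?_ h4
    simpa only [mul_smul_comm, map_smul, smul_eq_mul] using h3
  have h5 : EqK (D := D) B a ω (fun j => C.T (z * (v j * star (v j)))) fun j => 0 := by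
    have h5 := Eqv.T (C := C) ((Eqv.refl fun _ => z).mul hv' bz (Bd.const 1))
    simpa only [mul_one, hz] using h5
  have h6 : EqK (D := D) B a ω (fun j => C.T (z * (star (v j) * v j))) fun j => 0 := by
    have h5 := Eqv.T (C := C) ((Eqv.refl fun _ => z).mul hv bz (Bd.const 1))
    simpa only [mul_one, hz] using h5
  -- T (z cr)
  have h7 : EqK (D := D) B a ω (fun j => C.T (z * C.cr (v j) (star (v j))))
      fun j => -(C.T (v j) * β j) := by
    have h8 := (EqK.refl (D := D) (B := B) (a := a) (ω := ω) (fun j => C.T (star (v j)))).mul hzv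
      (Bd.T (C := C) by') (BdK.const 0)
    have h9 := (h5.add h6).sub ((EqK.refl (D := D) (B := B) (a := a) (ω := ω)
      (fun j => C.T (v j) * β j)).add h8)
    have e1 : (fun j => C.T (z * C.cr (v j) (star (v j)))) = fun j =>
        C.T (z * (v j * star (v j))) + C.T (z * (star (v j) * v j)) -
          (C.T (v j) * β j + C.T (star (v j)) * C.T (z * v j)) := by
      funext j
      rw [Cub.cr]
      simp only [mul_add, mul_sub, map_add, map_sub, mul_smul_comm, map_smul, smul_eq_mul, mul_one,
        hz, hβ]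
      ring
    have e2 : (fun j => -(C.T (v j) * β j)) = fun j =>
        (0 : K) + 0 - (C.T (v j) * β j + C.T (star (v j)) * 0) := by
      funext j
      ring
    rw [e1, e2]
    exact h9
  -- σ
  have hσ : EqK (D := D) B a ω (fun j => C.T (z * C.adj (α • v j + star (α • v j))))
      fun j => β j * (α ^ 2 * C.N (v j) - α * star α * C.T (v j)) := by
    have c : ∀ e : K, EqK (D := D) B a ω (fun _ : ℕ => e) fun _ => e := fun e => EqK.refl _
    have h8 := (((c (α ^ 2)).mul h3 (BdK.const _) (bN.mul bβ)).add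
      ((c ((star α) ^ 2)).mul h4 (BdK.const _) (BdK.const 0))).add
      ((c (α * star α)).mul h7 (BdK.const _) (by
        have h9 := (BdK.const (D := D) (B := B) (a := a) (ω := ω) (0 : K)).sub (bT.mul bβ)
        simpa only [zero_sub] using h9))
    have e1 : (fun j => C.T (z * C.adj (α • v j + star (α • v j)))) = fun j =>
        α ^ 2 * C.T (z * C.adj (v j)) + (star α) ^ 2 * C.T (z * C.adj (star (v j))) +
          α * star α * C.T (z * C.cr (v j) (star (v j))) := by
      funext j
      rw [h.smul, C.adj_add, C.adj_smul, C.adj_smul, C.cr_smul_left, C.cr_smul_right]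
      simp only [mul_add, map_add, mul_smul_comm, map_smul, smul_eq_mul]
      ring
    have e2 : (fun j => β j * (α ^ 2 * C.N (v j) - α * star α * C.T (v j))) = fun j =>
        α ^ 2 * (C.N (v j) * β j) + (star α) ^ 2 * 0 + α * star α * (-(C.T (v j) * β j)) := by
      funext j
      ring
    rw [e1, e2]
    exact h8
  -- τ
  have hτ : EqK (D := D) B a ω (fun j => C.T (z * (α • v j + star (α • v j))))
      fun j => β j * star α := by
    have c : ∀ e : K, EqK (D := D) B a ω (fun _ : ℕ => e) fun _ => e := fun e => EqK.refl _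
    have h8 := ((c α).mul hzv (BdK.const _) (BdK.const 0)).add
      (EqK.refl (D := D) (B := B) (a := a) (ω := ω) fun j => β j * star α)
    have e1 : (fun j => C.T (z * (α • v j + star (α • v j)))) = fun j =>
        α * C.T (z * v j) + β j * star α := by
      funext j
      rw [h.smul]
      simp only [mul_add, map_add, mul_smul_comm, map_smul, smul_eq_mul, hβ]
      ring
    rw [e1]
    simpa only [mul_zero, zero_add] using h8
  have bξ : Bd B a ω fun j => α • v j + star (α • v j) :=
    (Bd.smul (BdK.const α) bv).add (Bd.star h hk (Bd.smul (BdK.const α) bv))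
  have h8 := (Eqv.smul hσ (Eqv.refl fun _ => (1 : D)) (bβ.mul (((BdK.const _).mul bN).sub
    ((BdK.const _).mul bT))) (Bd.const 1)).add (Eqv.smul hτ (Eqv.refl _)
      (bβ.mul (BdK.const _)) bξ)
  have e1 : (fun j => β j • B1 C α (star α) (v j) (star (v j))) = fun j =>
      (β j * (α ^ 2 * C.N (v j) - α * star α * C.T (v j))) • (1 : D) +
        (β j * star α) • (α • v j + star (α • v j)) := by
    funext j
    rw [B1, h.smul]
    module
  rw [e1]
  exact h8

theorem step2_star {v : ℕ → D} (bv : Bd B a ω v)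
    (hv : Eqv B a ω (fun j => star (v j) * v j) fun _ => 1) (α : K) :
    Eqv B a ω (fun j => C.N (v j) • star (B1 C α (star α) (v j) (star (v j))))
      fun j => v j * B1 C α (star α) (v j) (star (v j)) := by
  have hv' := unit_comm h hk bv hv
  have by' := Bd.star h hk bv
  have hA := adj_unit h hk h2 (C := C) bv hv'
  have hNN := N_unit h hk h2 (C := C) bv hv'
  have bN := Bd.N (C := C) h2 bv
  have bT := Bd.T (C := C) bv
  have bTy := Bd.T (C := C) by'
  have c : ∀ e : K, EqK (D := D) B a ω (fun _ : ℕ => e) fun _ => e := fun e => EqK.refl _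
  have bc : ∀ e : K, BdK (D := D) B a ω (fun _ : ℕ => e) := fun e => BdK.const e
  -- S v = N v T (star v)
  have hS : EqK (D := D) B a ω (fun j => C.S (v j)) fun j => C.N (v j) * C.T (star (v j)) := by
    have h1 := Eqv.T (C := C) hA
    simp only [map_smul, smul_eq_mul] at h1
    exact h1
  have bS : BdK (D := D) B a ω fun j => C.N (v j) * C.T (star (v j)) := bN.mul bTy
  -- the right hand side
  have e1 : (fun j => v j * B1 C α (star α) (v j) (star (v j))) = fun j =>
      (α ^ 2 * C.N (v j)) • v j + (α * star α) • C.adj (v j) - (α * star α * C.S (v j)) • (1 : D)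
        + (star α) ^ 2 • (v j * star (v j)) := by
    funext j
    rw [B1, C.adj_eq]
    simp only [mul_add, mul_smul_comm, mul_one]
    module
  have e2 : (fun j => C.N (v j) • star (B1 C α (star α) (v j) (star (v j)))) = fun j =>
      (α ^ 2 * C.N (v j)) • v j + (α * star α) • (C.N (v j) • star (v j)) -
        (α * star α * (C.N (v j) * C.T (star (v j)))) • (1 : D) +
        ((star α) ^ 2 * (C.N (v j) * star (C.N (v j)))) • (1 : D) := by
    funext j
    rw [B1, star_add, star_add, h.smul, h.smul, h.smul, star_one, star_star, star_sub, star_mul',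
      star_mul', star_mul', star_pow, star_pow, star_star, h.T]
    module
  rw [e1, e2]
  have h3 : Eqv B a ω (fun j => (α * star α) • (C.N (v j) • star (v j)))
      fun j => (α * star α) • C.adj (v j) :=
    Eqv.smul (c _) hA.symm (bc _) (Bd.adj (C := C) h2 bv)
  have h4 : Eqv B a ω (fun j => (α * star α * (C.N (v j) * C.T (star (v j)))) • (1 : D))
      fun j => (α * star α * C.S (v j)) • (1 : D) :=
    Eqv.smul ((c _).mul hS.symm (bc _) (hS.bd bS)) (Eqv.refl _) ((bc _).mul (hS.bd bS))
      (Bd.const 1)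
  have h5 : Eqv B a ω (fun j => ((star α) ^ 2 * (C.N (v j) * star (C.N (v j)))) • (1 : D))
      fun j => (star α) ^ 2 • (v j * star (v j)) := by
    have h6 := Eqv.smul ((c ((star α) ^ 2)).mul hNN (bc _) (bc _)) (Eqv.refl fun _ => (1 : D))
      ((bc _).mul (bc _)) (Bd.const 1)
    have h7 := Eqv.smul (c ((star α) ^ 2)) hv' (bc _) (Bd.const 1)
    simp only [mul_one] at h6
    exact h6.trans h7.symm
  exact (((Eqv.refl _).add h3).sub h4).add h5

theorem bd_B1 {v y : ℕ → D} (bv : Bd B a ω v) (by' : Bd B a ω y) (p q : K) :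
    Bd B a ω fun j => B1 C p q (v j) (y j) := by
  have bN := Bd.N (C := C) h2 bv
  have bT := Bd.T (C := C) bv
  have bc : ∀ e : K, BdK (D := D) B a ω (fun _ : ℕ => e) := fun e => BdK.const e
  exact ((Bd.smul (((bc _).mul bN).sub ((bc _).mul bT)) (Bd.const 1)).add
    (Bd.smul (bc _) bv)).add (Bd.smul (bc _) by')

/-- **The second step.** If `T (z v²)` is bounded away from zero, the parametrisation at
`α v + (α v)^*` gives `v` up to a scalar of norm one. -/
theorem step2 {ι : Type} [Fintype ι] {b : ι → K → ℝ} (hb : Comps B a b) {z : D}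
    (hz : C.T z = 0) {v : ℕ → D} (bv : Bd B a ω v)
    (hv : Eqv B a ω (fun j => star (v j) * v j) fun _ => 1)
    (hzv : EqK (D := D) B a ω (fun j => C.T (z * v j)) fun _ => 0)
    (hA : ∀ i, Pos (b i) ω fun j => C.T (z * (v j * v j))) {α : K}
    (hB : ∀ i, Pos (b i) ω fun j => C.N (B1 C α (star α) (v j) (star (v j)))) :
    ∃ m : ℕ → D, ∃ l : ℕ → K, (∀ j, m j = be C z (α • v j + star (α • v j))) ∧
      (∀ j, l j = C.N (v j) * C.T (z * star (v j)) * (star (C.T (z * star (v j))))⁻¹) ∧
      (∀ᶠ j in ω, m j ≠ 0) ∧ (∀ᶠ j in ω, C.T (z * star (v j)) ≠ 0) ∧ BdK (D := D) B a ω l ∧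
      Eqv B a ω (fun j => l j • (star (m j) * (m j)⁻¹)) v := by
  have hv' := unit_comm h hk bv hv
  have by' := Bd.star h hk bv
  have bN := Bd.N (C := C) h2 bv
  have bz : Bd B a ω fun _ : ℕ => z := Bd.const z
  have hm := step2_be h hk h2 (C := C) hz bv hv hzv α
  have hs := step2_star h hk h2 (C := C) bv hv α
  have bB := bd_B1 h hk h2 (C := C) bv by' α (star α)
  have hAd := adj_unit h hk h2 (C := C) bv hv'
  set β : ℕ → K := fun j => C.T (z * star (v j)) with hβ
  set Bb : ℕ → D := fun j => B1 C α (star α) (v j) (star (v j)) with hBb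
  have bβ : BdK (D := D) B a ω β := Bd.T (C := C) (bz.mul by')
  -- N β = T (z v v)
  have h3 : EqK (D := D) B a ω (fun j => C.T (z * (v j * v j))) fun j => C.N (v j) * β j := by
    have h3 := Eqv.T (C := C) ((Eqv.refl fun _ => z).mul hAd bz (Bd.smul bN by'))
    have h4 := (EqK.refl (D := D) (B := B) (a := a) (ω := ω) (fun j => C.T (v j))).mul hzv
      (Bd.T (C := C) bv) (BdK.const 0)
    have h5 := h3.add h4
    have e1 : (fun j => C.T (z * (v j * v j))) = fun j =>
        C.T (z * C.adj (v j)) + C.T (v j) * C.T (z * v j) := by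
      funext j
      rw [C.adj_eq]
      simp only [mul_add, mul_sub, map_add, map_sub, mul_smul_comm, map_smul, smul_eq_mul, mul_one,
        hz]
      ring
    rw [e1]
    simpa only [mul_smul_comm, map_smul, smul_eq_mul, mul_zero, add_zero] using h5
  have hNβ : ∀ i, Pos (b i) ω fun j => C.N (v j) * β j := fun i => hb.pos_eqK h3.symm (hA i)
  have hβp : ∀ i, Pos (b i) ω β := by
    intro i
    refine hb.pos_of_mul (g := fun j => C.N (v j)) ?_ bN
    have h4 := hNβ i
    simpa only [mul_comm] using h4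
  obtain ⟨hβ0, bβi⟩ := hb.inv_bd hβp
  -- N m
  have bm : Bd B a ω fun j => be C z (α • v j + star (α • v j)) := hm.bd (Bd.smul bβ bB)
  have hNm : ∀ i, Pos (b i) ω fun j => C.N (be C z (α • v j + star (α • v j))) := by
    intro i
    have h4 := Eqv.N (C := C) h2 hm (Bd.smul bβ bB)
    refine hb.pos_eqK h4 ?_
    simp only [C.N_smul]
    refine Pos.mul (hb.sz i) ?_ (hB i)
    have h5 := Pos.mul (hb.sz i) (Pos.mul (hb.sz i) (hβp i) (hβp i)) (hβp i)
    have e : (fun j => β j ^ 3) = fun j => β j * β j * β j := by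
      funext j
      ring
    rw [e]
    exact h5
  obtain ⟨hm0, bmi⟩ := hb.inv_bd hNm
  have hm0' : ∀ᶠ j in ω, be C z (α • v j + star (α • v j)) ≠ 0 := by
    filter_upwards [hm0] with j hj h0
    rw [h0, C.N_zero] at hj
    exact hj rfl
  have bminv : Bd B a ω fun j => (be C z (α • v j + star (α • v j)))⁻¹ := by
    refine Bd.congr' (Bd.smul bmi (Bd.adj (C := C) h2 bm)) ?_
    filter_upwards [hm0'] with j hj
    rw [C.inv_eq hj]
  -- star m
  have hsm : Eqv B a ω (fun j => (C.N (v j) * β j) • star (be C z (α • v j + star (α • v j))))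
      fun j => star (β j) • (v j * be C z (α • v j + star (α • v j))) := by
    have h4 := Eqv.smul (EqK.refl (D := D) (B := B) (a := a) (ω := ω) fun j => C.N (v j) * β j)
      (Eqv.star h hk hm) (bN.mul bβ) (Bd.star h hk (Bd.smul bβ bB))
    have h5 := Eqv.smul (EqK.refl (D := D) (B := B) (a := a) (ω := ω) fun j => β j * star (β j))
      hs (bβ.mul (BdK.star h hk bβ)) (bv.mul bB)
    have h6 := Eqv.smul (EqK.refl (D := D) (B := B) (a := a) (ω := ω) fun j => star (β j))
      ((Eqv.refl v).mul hm bv (Bd.smul bβ bB)) (BdK.star h hk bβ) (bv.mul (Bd.smul bβ bB))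
    refine (h4.trans (Eqv.of_eq ?_)).trans (h5.trans ((Eqv.of_eq ?_).trans h6.symm))
    · intro j
      rw [h.smul, smul_smul, smul_smul]
      congr 1
      ring
    · intro j
      rw [mul_smul_comm, smul_smul, mul_comm]
  refine ⟨fun j => be C z (α • v j + star (α • v j)),
    fun j => C.N (v j) * β j * (star (β j))⁻¹, fun j => rfl, fun j => rfl, hm0', hβ0, ?_, ?_⟩
  · have h4 := BdK.star h hk bβi
    simp only [star_inv₀] at h4
    exact (bN.mul bβ).mul h4
  · have h4 := BdK.star h hk bβi
    simp only [star_inv₀] at h4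
    have h5 := (Eqv.smul (EqK.refl (D := D) (B := B) (a := a) (ω := ω) fun j => (star (β j))⁻¹)
      hsm h4 (Bd.smul (BdK.star h hk bβ) (bv.mul bm))).mul
      (Eqv.refl fun j => (be C z (α • v j + star (α • v j)))⁻¹)
      (Bd.smul h4 (Bd.smul (BdK.star h hk bβ) (bv.mul bm))) bminv
    refine ((Eqv.of_eq ?_).trans h5).trans (Eqv.congr' (Eqv.refl v) ?_)
    · intro j
      rw [smul_smul, smul_mul_assoc, mul_comm ((star (β j))⁻¹)]
    · filter_upwards [hm0', hβ0] with j h6 h7
      have h8 : star (β j) ≠ 0 := star_ne_zero.mpr h7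
      rw [smul_smul, inv_mul_cancel₀ h8, one_smul, mul_assoc, mul_inv_cancel₀ h6, mul_one]

end cub

end Vale.Agent.P011.H3
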